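import Vale.Agent.P050.Defs

/-!
# From a bipartite simple graph to an oriented edge set
-/

namespace Vale.Agent.P050

open Finset

theorem bridge {V : Type*} [Fintype V] [DecidableEq V] (H : SimpleGraph V) [DecidableRel H.Adj]
    (hH : H.Colorable 2) :
    ∃ (col : V → Bool) (E : Finset (V × V)), Oriented col E ∧ E.card = H.edgeFinset.card ∧
      (∀ v, deg E v ≤ H.maxDegree) ∧
      ∀ f : Sym2 V → ℝ, ∏ e ∈ H.edgeFinset, f e = ∏ p ∈ E, f s(p.1, p.2) := by
  classical
  obtain ⟨C⟩ := hH
  have hfin2 : ∀ i : Fin 2, i ≠ 0 → i = 1 := by decide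
  set E : Finset (V × V) := univ.filter (fun p => H.Adj p.1 p.2 ∧ C p.1 = 0) with hE
  have hmem : ∀ p : V × V, p ∈ E ↔ H.Adj p.1 p.2 ∧ C p.1 = 0 := by
    intro p
    rw [hE, mem_filter]
    simp
  have hsnd : ∀ p ∈ E, C p.2 = 1 := by
    intro p hp
    obtain ⟨h1, h2⟩ := (hmem p).mp hp
    apply hfin2
    intro hc
    exact C.valid h1 (by rw [h2, hc])
  have hinj : Set.InjOn (fun p : V × V => s(p.1, p.2)) E := by
    intro p hp q hq h
    have h' : s(p.1, p.2) = s(q.1, q.2) := h
    rw [Sym2.eq_iff] at h'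
    rcases h' with ⟨h1, h2⟩ | ⟨h1, h2⟩
    · exact Prod.ext h1 h2
    · exfalso
      have a1 := ((hmem p).mp hp).2
      have a2 := hsnd q hq
      rw [h1, a2] at a1
      exact absurd a1 (by decide)
  have himg : H.edgeFinset = E.image (fun p : V × V => s(p.1, p.2)) := by
    ext e
    induction e using Sym2.ind with
    | _ a b =>
      rw [SimpleGraph.mem_edgeFinset, SimpleGraph.mem_edgeSet, mem_image]
      constructor
      · intro hab
        by_cases ha : C a = 0
        · exact ⟨(a, b), (hmem _).mpr ⟨hab, ha⟩, rfl⟩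
        · have ha1 := hfin2 _ ha
          have hb : C b = 0 := by
            by_contra hb
            exact C.valid hab (by rw [ha1, hfin2 _ hb])
          exact ⟨(b, a), (hmem _).mpr ⟨hab.symm, hb⟩, Sym2.eq_swap⟩
      · rintro ⟨p, hp, hpe⟩
        have h1 := ((hmem p).mp hp).1
        rw [Sym2.eq_iff] at hpe
        rcases hpe with ⟨h2, h3⟩ | ⟨h2, h3⟩
        · rw [← h2, ← h3]; exact h1
        · rw [← h2, ← h3]; exact h1.symm
  refine ⟨fun v => decide (C v = 1), E, ?_, ?_, ?_, ?_⟩
  · intro p hp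
    have a1 := ((hmem p).mp hp).2
    have a2 := hsnd p hp
    simp [a1, a2]
  · rw [himg, card_image_of_injOn hinj]
  · intro v
    refine le_trans ?_ (H.degree_le_maxDegree v)
    rw [← SimpleGraph.card_incidenceFinset_eq_degree]
    unfold deg
    rw [← card_image_of_injOn (hinj.mono (fun p hp => (mem_filter.mp hp).1))]
    apply card_le_card
    intro e he
    obtain ⟨p, hp, rfl⟩ := mem_image.mp he
    obtain ⟨hp1, hp2⟩ := mem_filter.mp hp
    rw [SimpleGraph.mem_incidenceFinset, SimpleGraph.mk'_mem_incidenceSet_iff]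
    refine ⟨((hmem p).mp hp1).1, ?_⟩
    rcases hp2 with h | h
    · exact Or.inl h.symm
    · exact Or.inr h.symm
  · intro f
    rw [himg, prod_image hinj]

end Vale.Agent.P050
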