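import Mathlib

/-!
# Abstract charging lemmas
-/

namespace Vale.Agent.P050

open Finset

theorem charge_sum {α : Type*} [DecidableEq α] (B G : Finset α) (γ : α → α)
    (hγ : ∀ F ∈ B, γ F ∈ G) (φ s : α → ℝ) (hs : ∀ g ∈ G, 0 ≤ s g) (K : ℝ)
    (hK : ∀ g ∈ G, ∑ F ∈ B.filter (fun F => γ F = g), φ F ≤ K) :
    ∑ F ∈ B, φ F * s (γ F) ≤ K * ∑ g ∈ G, s g := by
  rw [← sum_fiberwise_of_maps_to hγ, mul_sum]
  refine sum_le_sum fun g hg => ?_
  have h1 : ∑ F ∈ B.filter (fun F => γ F = g), φ F * s (γ F) =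
      (∑ F ∈ B.filter (fun F => γ F = g), φ F) * s g := by
    rw [sum_mul]
    refine sum_congr rfl fun F hF => ?_
    rw [(mem_filter.mp hF).2]
  rw [h1]
  exact mul_le_mul_of_nonneg_right (hK g hg) (hs g hg)

/-- Passing from supersets `F` of `g` to the differences `F \ g`. -/
theorem sum_sdiff_le {α : Type*} [DecidableEq α] (g : Finset α) (A T : Finset (Finset α)) (x : ℝ)
    (hx : 0 ≤ x) (hA : ∀ F ∈ A, g ⊆ F ∧ F \ g ∈ T) :
    ∑ F ∈ A, x ^ (F.card - g.card) ≤ ∑ F' ∈ T, x ^ F'.card := by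
  have hinj : Set.InjOn (fun F : Finset α => F \ g) A := by
    intro F hF F' hF' h
    have h1 := (hA F hF).1
    have h2 := (hA F' hF').1
    have h3 : F \ g = F' \ g := h
    rw [← sdiff_union_of_subset h1, ← sdiff_union_of_subset h2, h3]
  calc ∑ F ∈ A, x ^ (F.card - g.card) = ∑ F ∈ A, x ^ (F \ g).card := by
        refine sum_congr rfl fun F hF => ?_
        rw [card_sdiff_of_subset (hA F hF).1]
    _ = ∑ F' ∈ A.image (fun F => F \ g), x ^ F'.card := by
        rw [sum_image hinj]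
    _ ≤ ∑ F' ∈ T, x ^ F'.card := by
        apply sum_le_sum_of_subset_of_nonneg
        · intro F' hF'
          obtain ⟨F, hF, rfl⟩ := mem_image.mp hF'
          exact (hA F hF).2
        · intro _ _ _
          exact pow_nonneg hx _

theorem sum_powerset_pow {α : Type*} (s : Finset α) (x : ℝ) :
    ∑ t ∈ s.powerset, x ^ t.card = (1 + x) ^ s.card := by
  have h := prod_one_add (f := fun _ : α => x) s
  simp only [prod_const] at h
  exact h.symm

/-- The proper supersets of `g` inside `E`. -/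
theorem sum_supersets_le {α : Type*} [DecidableEq α] (E g : Finset α) (x : ℝ) (hx : 0 ≤ x)
    (A : Finset (Finset α)) (hA : ∀ F ∈ A, F ⊆ E ∧ g ⊆ F ∧ F ≠ g) :
    ∑ F ∈ A, x ^ (F.card - g.card) ≤ (1 + x) ^ E.card - 1 := by
  have h1 := sum_sdiff_le g A (E.powerset.erase ∅) x hx (by
    intro F hF
    obtain ⟨h1, h2, h3⟩ := hA F hF
    refine ⟨h2, mem_erase.mpr ⟨?_, mem_powerset.mpr (sdiff_subset.trans h1)⟩⟩
    intro hc
    exact h3 (subset_antisymm (sdiff_eq_empty_iff_subset.mp hc) h2))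
  have h2 : ∑ F' ∈ E.powerset.erase ∅, x ^ F'.card = (1 + x) ^ E.card - 1 := by
    rw [← sum_powerset_pow, ← add_sum_erase E.powerset (fun t => x ^ t.card) (empty_mem_powerset E)]
    simp
  rw [h2] at h1
  exact h1

end Vale.Agent.P050
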