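import Vale.Agent.P050.Count
import Vale.Agent.P050.Charge

/-!
# Consequences of the counting bound

All statements are purely combinatorial.  `verts g` is the set of endpoints of the edges of `g`.
Tools: `sum_sdiff_le` (Charge.lean) passes from supersets `F ⊇ g` to the differences `F \ g`;
`sum_le_cover` below is a union bound; `cnt` is by definition the sum of `x ^ card` over
`E.powerset.filter (Valid S)` (classical decidability; use `unfold cnt`, `classical`, and `convert`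
or `Finset.sum_congr` / `Finset.filter_congr_decidable` if instances differ).

SKETCHES.
* `sum_le_cover`: `∑ p ∈ Q, ∑ F ∈ X.filter (R p), φ F = ∑ F ∈ X, (#{p ∈ Q | R p F}) * φ F` (Finset.sum_comm' or
  sum_filter + sum_comm) and the cardinality is at least one.
* `sum_valid_supersets`: apply `sum_sdiff_le` with `T = (E.powerset.filter (Valid (verts g))).erase ∅`.  If `F` is
  valid for `∅` and `f ∈ F \ g`, its partner `f' ∈ F` either lies in `g` (then `f` has an endpoint in `verts g`)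
  or in `F \ g`.  The sum over `T` is `cnt E (verts g) x - 1` (the empty set is valid).
* `sum_plain_supersets`: the same with `T = (E.powerset.filter (Valid ∅)).erase ∅`.
* `sum_pendant_supersets`: split `A` according to `Valid ∅ (F \ C)`; the first part is bounded as in
  `sum_plain_supersets`; cover the second part by `e₀ ∈ E` with `R e₀ F := e₀ ∈ F \ C ∧ Valid ∅ ((F \ C).erase e₀)`;
  for fixed `e₀` use `sum_sdiff_le` with `g := insert e₀ C`, `(F \ C).erase e₀ = F \ insert e₀ C`,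
  `x ^ (|F| - |C|) = x * x ^ (|F| - |insert e₀ C|)`, `T = E.powerset.filter (Valid ∅)`.
* `card_touch_le`: `{e ∈ E | e.1 ∈ S ∨ e.2 ∈ S} ⊆ S.biUnion (fun v => {e ∈ E | e.1 = v ∨ e.2 = v})`, card_biUnion_le.
* `sum_rooted_supersets`: first `sum_sdiff_le` to pass to `F₂ = F \ g` in
  `X = {F₂ ⊆ E | Valid ∅ F₂ ∧ ∃ f ∈ F₂, f.1 ∈ S ∨ f.2 ∈ S}` with `S = verts g`.  Cover `X` by the pairs `(f, f')`,
  `f ∈ {e ∈ E | e.1 ∈ S ∨ e.2 ∈ S}` (at most `|S| Δ ≤ 3 Δ` choices), `f' ∈ {e ∈ E | e ≠ f ∧ share f e}`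
  (at most `2 Δ` choices), `R (f,f') F₂ := f ∈ F₂ ∧ f' ∈ F₂`.  For a fixed pair, `sum_sdiff_le` with
  `g := {f, f'}` (card 2): `F₂ \ {f,f'}` is valid for `verts {f,f'}`, so the inner sum is at most
  `x² cnt E (verts {f,f'}) x ≤ x² P (1+2x)^(4Δ) ≤ 4 x² P` by `cnt_le`, `card_touch_le` (`|verts {f,f'}| ≤ 4`) and
  `(1+2x)^(4Δ) = ((1+2x)^(2Δ))² ≤ 4`.
-/

namespace Vale.Agent.P050

open Finset

variable {V : Type*} [DecidableEq V]

/-- The endpoints of the edges of `g`. -/
def verts (g : Finset (V × V)) : Finset V := g.image Prod.fst ∪ g.image Prod.snd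

theorem sum_le_cover {α β : Type*} [DecidableEq α] (X : Finset α) (Q : Finset β) (R : β → α → Prop)
    [∀ p, DecidablePred (R p)] (φ : α → ℝ) (hφ : ∀ F ∈ X, 0 ≤ φ F)
    (hcov : ∀ F ∈ X, ∃ p ∈ Q, R p F) :
    ∑ F ∈ X, φ F ≤ ∑ p ∈ Q, ∑ F ∈ X.filter (R p), φ F := by
  have h1 : ∑ p ∈ Q, ∑ F ∈ X.filter (R p), φ F
      = ∑ F ∈ X, ∑ p ∈ Q, if R p F then φ F else 0 := by
    rw [sum_comm]
    refine sum_congr rfl fun p _ => ?_
    rw [sum_filter]
  rw [h1]
  refine sum_le_sum fun F hF => ?_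
  obtain ⟨p, hp, hR⟩ := hcov F hF
  have h2 : (if R p F then φ F else 0) ≤ ∑ p ∈ Q, if R p F then φ F else 0 := by
    apply single_le_sum (f := fun p => if R p F then φ F else 0) _ hp
    intro q _
    split_ifs
    · exact hφ F hF
    · exact le_rfl
  rw [if_pos hR] at h2
  exact h2

omit [DecidableEq V] in
theorem valid_empty_set (S : Finset V) : Valid S (∅ : Finset (V × V)) := by
  intro e he
  simp at he

open Classical in
theorem sum_erase_valid (E : Finset (V × V)) (S : Finset V) (x : ℝ) :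
    ∑ F' ∈ (E.powerset.filter (Valid S)).erase ∅, x ^ F'.card = cnt E S x - 1 := by
  have hmem : (∅ : Finset (V × V)) ∈ E.powerset.filter (Valid S) :=
    mem_filter.mpr ⟨empty_mem_powerset E, valid_empty_set S⟩
  unfold cnt
  rw [← add_sum_erase (E.powerset.filter (Valid S)) (fun t => x ^ t.card) hmem]
  simp

theorem mem_verts_fst {g : Finset (V × V)} {e : V × V} (he : e ∈ g) : e.1 ∈ verts g :=
  mem_union_left _ (mem_image_of_mem _ he)

theorem mem_verts_snd {g : Finset (V × V)} {e : V × V} (he : e ∈ g) : e.2 ∈ verts g :=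
  mem_union_right _ (mem_image_of_mem _ he)

theorem valid_sdiff {F g : Finset (V × V)} (h : Valid ∅ F) : Valid (verts g) (F \ g) := by
  intro e he
  obtain ⟨heF, heg⟩ := mem_sdiff.mp he
  rcases h e heF with h1 | ⟨e', he', hne, hsh⟩
  · simp at h1
  · by_cases hg : e' ∈ g
    · left
      rcases hsh with h | h | h | h
      · left; rw [h]; exact mem_verts_fst hg
      · left; rw [h]; exact mem_verts_snd hg
      · right; rw [h]; exact mem_verts_fst hg
      · right; rw [h]; exact mem_verts_snd hg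
    · right
      exact ⟨e', mem_sdiff.mpr ⟨he', hg⟩, hne, hsh⟩

theorem sum_valid_supersets (E g : Finset (V × V)) (x : ℝ) (hx : 0 ≤ x)
    (A : Finset (Finset (V × V))) (hA : ∀ F ∈ A, F ⊆ E ∧ g ⊆ F ∧ F ≠ g ∧ Valid ∅ F) :
    ∑ F ∈ A, x ^ (F.card - g.card) ≤ cnt E (verts g) x - 1 := by
  classical
  have h1 := sum_sdiff_le g A ((E.powerset.filter (Valid (verts g))).erase ∅) x hx (by
    intro F hF
    obtain ⟨h1, h2, h3, h4⟩ := hA F hF
    refine ⟨h2, mem_erase.mpr ⟨?_, mem_filter.mpr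
      ⟨mem_powerset.mpr (sdiff_subset.trans h1), valid_sdiff h4⟩⟩⟩
    intro hc
    exact h3 (subset_antisymm (sdiff_eq_empty_iff_subset.mp hc) h2))
  have h2 := sum_erase_valid E (verts g) x
  calc ∑ F ∈ A, x ^ (F.card - g.card)
      ≤ ∑ F' ∈ (E.powerset.filter (Valid (verts g))).erase ∅, x ^ F'.card := h1
    _ = cnt E (verts g) x - 1 := by
        rw [← h2]

theorem sum_plain_supersets (E C : Finset (V × V)) (x : ℝ) (hx : 0 ≤ x)
    (A : Finset (Finset (V × V))) (hA : ∀ F ∈ A, F ⊆ E ∧ C ⊆ F ∧ F ≠ C ∧ Valid ∅ (F \ C)) :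
    ∑ F ∈ A, x ^ (F.card - C.card) ≤ cnt E ∅ x - 1 := by
  classical
  have h1 := sum_sdiff_le C A ((E.powerset.filter (Valid ∅)).erase ∅) x hx (by
    intro F hF
    obtain ⟨h1, h2, h3, h4⟩ := hA F hF
    refine ⟨h2, mem_erase.mpr ⟨?_, mem_filter.mpr
      ⟨mem_powerset.mpr (sdiff_subset.trans h1), h4⟩⟩⟩
    intro hc
    exact h3 (subset_antisymm (sdiff_eq_empty_iff_subset.mp hc) h2))
  have h2 := sum_erase_valid E (∅ : Finset V) x
  calc ∑ F ∈ A, x ^ (F.card - C.card)
      ≤ ∑ F' ∈ (E.powerset.filter (Valid ∅)).erase ∅, x ^ F'.card := h1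
    _ = cnt E ∅ x - 1 := by
        rw [← h2]

theorem card_touch_le (Δ : ℕ) (E : Finset (V × V)) (hdeg : ∀ v, deg E v ≤ Δ) (S : Finset V) :
    (E.filter (fun e => e.1 ∈ S ∨ e.2 ∈ S)).card ≤ S.card * Δ := by
  have hsub : E.filter (fun e => e.1 ∈ S ∨ e.2 ∈ S)
      ⊆ S.biUnion (fun v => E.filter (fun e => e.1 = v ∨ e.2 = v)) := by
    intro e he
    obtain ⟨heE, h⟩ := mem_filter.mp he
    rcases h with h | h
    · exact mem_biUnion.mpr ⟨e.1, h, mem_filter.mpr ⟨heE, Or.inl rfl⟩⟩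
    · exact mem_biUnion.mpr ⟨e.2, h, mem_filter.mpr ⟨heE, Or.inr rfl⟩⟩
  calc (E.filter (fun e => e.1 ∈ S ∨ e.2 ∈ S)).card
      ≤ (S.biUnion (fun v => E.filter (fun e => e.1 = v ∨ e.2 = v))).card := card_le_card hsub
    _ ≤ ∑ v ∈ S, (E.filter (fun e => e.1 = v ∨ e.2 = v)).card := card_biUnion_le
    _ ≤ ∑ _v ∈ S, Δ := sum_le_sum fun v _ => hdeg v
    _ = S.card * Δ := by rw [sum_const, smul_eq_mul]

end Vale.Agent.P050
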