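import Vale.Agent.P050.OneLeaf
import Vale.Agent.P050.CountApps

/-!
# Structure of the bad edge sets for the refined charging
-/

namespace Vale.Agent.P050

open Finset

variable {V Ω : Type*} [DecidableEq V]

theorem mem_verts {g : Finset (V × V)} {a : V} :
    a ∈ verts g ↔ ∃ e ∈ g, e.1 = a ∨ e.2 = a := by
  unfold verts
  simp only [mem_union, mem_image]
  constructor
  · rintro (⟨e, he, h⟩ | ⟨e, he, h⟩)
    · exact ⟨e, he, Or.inl h⟩
    · exact ⟨e, he, Or.inr h⟩
  · rintro ⟨e, he, h | h⟩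
    · exact Or.inl ⟨e, he, h⟩
    · exact Or.inr ⟨e, he, h⟩

/-- A cherry has at most three vertices. -/
theorem card_verts_cherry {g : Finset (V × V)} (hcard : g.card = 2) (hval : Valid ∅ g) :
    (verts g).card ≤ 3 := by
  obtain ⟨e, e', hne, rfl⟩ := card_eq_two.mp hcard
  have hsh : share e e' := by
    rcases hval e (by simp) with h | ⟨e'', h1, h2, h3⟩
    · simp at h
    · rcases mem_insert.mp h1 with rfl | h1
      · exact absurd rfl h2
      · rw [mem_singleton] at h1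
        rwa [h1] at h3
  have hv : verts ({e, e'} : Finset (V × V)) = {e.1, e'.1, e.2, e'.2} := by
    unfold verts
    ext a
    simp only [image_insert, image_singleton, mem_union, mem_insert, mem_singleton]
    tauto
  rw [hv]
  unfold share at hsh
  rcases hsh with h | h | h | h
  · rw [h]
    have : ({e'.1, e'.1, e.2, e'.2} : Finset V) = {e'.1, e.2, e'.2} := by simp
    rw [this]
    exact card_le_three
  · rw [h]
    have : ({e'.2, e'.1, e.2, e'.2} : Finset V) = {e'.2, e'.1, e.2} := by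
      ext a
      simp only [mem_insert, mem_singleton]
      tauto
    rw [this]
    exact card_le_three
  · rw [h]
    have : ({e.1, e'.1, e'.1, e'.2} : Finset V) = {e.1, e'.1, e'.2} := by simp
    rw [this]
    exact card_le_three
  · rw [h]
    have : ({e.1, e'.1, e'.2, e'.2} : Finset V) = {e.1, e'.1, e'.2} := by simp
    rw [this]
    exact card_le_three

theorem deg_erase_of_not_touch {F : Finset (V × V)} {e₀ : V × V} {w : V}
    (h : ¬ (e₀.1 = w ∨ e₀.2 = w)) : deg (F.erase e₀) w = deg F w := by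
  unfold deg
  congr 1
  ext e
  simp only [mem_filter, mem_erase]
  constructor
  · rintro ⟨⟨_, h2⟩, h3⟩
    exact ⟨h2, h3⟩
  · rintro ⟨h2, h3⟩
    refine ⟨⟨?_, h2⟩, h3⟩
    rintro rfl
    exact h h3

theorem exists_edge_of_deg_eq_one {F : Finset (V × V)} {w : V} (h : deg F w = 1) :
    ∃ e ∈ F, e.1 = w ∨ e.2 = w := by
  unfold deg at h
  obtain ⟨e, he⟩ := card_eq_one.mp h
  have hmem : e ∈ F.filter (fun e => e.1 = w ∨ e.2 = w) := by rw [he]; exact mem_singleton_self e
  exact ⟨e, (mem_filter.mp hmem).1, (mem_filter.mp hmem).2⟩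

/-- The edges outside a full cycle set have an endpoint off the cycle. -/
theorem exists_endpoint_off {F : Finset (V × V)} {n : ℕ} (c : Fin n → V) {f : V × V} (hf : f ∈ F)
    (hfC : f ∉ cycEdges F c) :
    ∃ a, (f.1 = a ∨ f.2 = a) ∧ ∀ e ∈ cycEdges F c, ¬ (e.1 = a ∨ e.2 = a) := by
  have h1 : ¬ (f.1 ∈ Set.range c ∧ f.2 ∈ Set.range c) := fun h => hfC ((mem_cycEdges F c f).mpr ⟨hf, h⟩)
  by_cases h2 : f.1 ∈ Set.range c
  · have h3 : f.2 ∉ Set.range c := fun h3 => h1 ⟨h2, h3⟩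
    refine ⟨f.2, Or.inr rfl, fun e he => ?_⟩
    obtain ⟨-, a1, a2⟩ := (mem_cycEdges F c e).mp he
    rintro (h | h)
    · exact h3 (h ▸ a1)
    · exact h3 (h ▸ a2)
  · refine ⟨f.1, Or.inl rfl, fun e he => ?_⟩
    obtain ⟨-, a1, a2⟩ := (mem_cycEdges F c e).mp he
    rintro (h | h)
    · exact h2 (h ▸ a1)
    · exact h2 (h ▸ a2)

theorem share_of_common {e e' : V × V} {a : V} (h : e.1 = a ∨ e.2 = a) (h' : e'.1 = a ∨ e'.2 = a) :
    share e e' := by
  unfold share
  rcases h with h | h <;> rcases h' with h' | h'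
  · exact Or.inl (h.trans h'.symm)
  · exact Or.inr (Or.inl (h.trans h'.symm))
  · exact Or.inr (Or.inr (Or.inl (h.trans h'.symm)))
  · exact Or.inr (Or.inr (Or.inr (h.trans h'.symm)))

variable [Fintype V] [Fintype Ω] [DecidableEq Ω]

/-- Leafless edge sets. -/
theorem classC0 [Nonempty Ω] (U : Ω → Ω → ℝ) (hU : ∀ a b, U a b = U b a) (ε : ℝ)
    (hε : ∀ a b, |U a b| ≤ ε) {col : V → Bool} {F : Finset (V × V)} (hF : Oriented col F)
    (hne : F.Nonempty) (hleaf : ∀ v, deg F v ≠ 1) :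
    ∃ C : Finset (V × V), C ⊆ F ∧ IsCycleSet C ∧ |hs U F| ≤ ε ^ (F.card - C.card) * hs U C ∧
      Valid ∅ (F \ C) := by
  obtain ⟨n, hn0, c, hn, hn4, hc⟩ := exists_cycle col F hF hne
    (fun v _ h _ => absurd h (hleaf v))
  refine ⟨cycEdges F c, cycEdges_subset F c, isCycleSet_cycEdges hc hn hn4,
    abs_hs_le_cycle U hU ε hε hF hc hn hn4, ?_⟩
  intro f hf
  right
  obtain ⟨hfF, hfC⟩ := mem_sdiff.mp hf
  obtain ⟨a, ha, hoff⟩ := exists_endpoint_off c hfF hfC
  obtain ⟨f', hf', hne', ht'⟩ := exists_other_edge (hleaf a) hfF ha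
  exact ⟨f', mem_sdiff.mpr ⟨hf', fun h => hoff f' h ht'⟩, hne', share_of_common ha ht'⟩

/-- Edge sets with exactly one leaf. -/
theorem classB [Nonempty Ω] (U : Ω → Ω → ℝ) (hU : ∀ a b, U a b = U b a) (ε : ℝ)
    (hε : ∀ a b, |U a b| ≤ ε) {col : V → Bool} {F : Finset (V × V)} (hF : Oriented col F)
    (hval : Valid ∅ F) {l : V} (hl1 : deg F l = 1) (huniq : ∀ w, deg F w = 1 → w = l) :
    ∃ g C : Finset (V × V), g ⊆ F ∧ g.card = 2 ∧ Valid ∅ g ∧ C ⊆ F ∧ IsCycleSet C ∧ C ≠ F ∧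
      hs U F ^ 2 ≤ (ε ^ (F.card - g.card) * hs U g) * (ε ^ (F.card - C.card) * hs U C) ∧
      Valid ∅ (F \ g) ∧ (∃ f ∈ F \ g, f.1 ∈ verts g ∨ f.2 ∈ verts g) ∧
      (Valid ∅ (F \ C) ∨ ∃ e₀ ∈ F \ C, Valid ∅ ((F \ C).erase e₀)) := by
  obtain ⟨e₀, he₀, v, hlv, hne, hl⟩ := leaf_data hF hl1
  obtain ⟨e₁, he₁, hn₁, ht₁, hvalg, hsg⟩ := exists_cherry_at_leaf U hU hF hval he₀ hlv hne hl
  have hnotl : ∀ f ∈ F, f ≠ e₀ → ¬ (f.1 = l ∨ f.2 = l) := fun f hf hfe h => hfe (hl f hf h)
  have he₀t : ∀ w, (e₀.1 = w ∨ e₀.2 = w) → w = l ∨ w = v := by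
    intro w hw
    rcases hlv with rfl | rfl
    · rcases hw with h | h
      · exact Or.inl h.symm
      · exact Or.inr h.symm
    · rcases hw with h | h
      · exact Or.inr h.symm
      · exact Or.inl h.symm
  have hdeg : ∀ w, w ≠ l → deg F w ≠ 1 := fun w hw h => hw (huniq w h)
  -- the cycle
  have hF₁ : Oriented col (F.erase e₀) := hF.mono (erase_subset _ _)
  have hleaf₁ : ∀ w, deg (F.erase e₀) w = 1 → w = v := by
    intro w hw
    obtain ⟨f, hf, hft⟩ := exists_edge_of_deg_eq_one hw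
    obtain ⟨hfe, hfF⟩ := mem_erase.mp hf
    have hwl : w ≠ l := by
      rintro rfl
      exact hnotl f hfF hfe hft
    by_contra hwv
    have hnt : ¬ (e₀.1 = w ∨ e₀.2 = w) := by
      intro h
      rcases he₀t w h with h | h
      · exact hwl h
      · exact hwv h
    rw [deg_erase_of_not_touch hnt] at hw
    exact hdeg w hwl hw
  obtain ⟨n, hn0, c, hn, hn4, hc⟩ := exists_cycle col (F.erase e₀) hF₁
    ⟨e₁, mem_erase.mpr ⟨hn₁, he₁⟩⟩ (fun a b ha hb => (hleaf₁ a ha).trans (hleaf₁ b hb).symm)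
  set C := cycEdges (F.erase e₀) c with hC
  have hCF₁ : C ⊆ F.erase e₀ := cycEdges_subset _ _
  have hCF : C ⊆ F := hCF₁.trans (erase_subset _ _)
  have he₀C : e₀ ∉ C := fun h => (mem_erase.mp (hCF₁ h)).1 rfl
  have hsq := one_leaf_sq U hU ε hε hF he₀ hlv hne hl hn hn4 hc
  -- every edge outside `C` other than the pendant one has a partner outside `C`
  have hpartner : ∀ f ∈ F \ C, f ≠ e₀ → ∃ f' ∈ F \ C, f' ≠ f ∧ share f f' := by
    intro f hf hfe
    obtain ⟨hfF, hfC⟩ := mem_sdiff.mp hf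
    obtain ⟨a, ha, hoff⟩ := exists_endpoint_off c (mem_erase.mpr ⟨hfe, hfF⟩) hfC
    have hal : a ≠ l := by
      rintro rfl
      exact hnotl f hfF hfe ha
    obtain ⟨f', hf', hne', ht'⟩ := exists_other_edge (hdeg a hal) hfF ha
    exact ⟨f', mem_sdiff.mpr ⟨hf', fun h => hoff f' h ht'⟩, hne', share_of_common ha ht'⟩
  refine ⟨{e₀, e₁}, C, ?_, card_pair hn₁.symm, hvalg, hCF, isCycleSet_cycEdges hc hn hn4, ?_, ?_,
    ?_, ?_, ?_⟩
  · intro z hz
    rcases mem_insert.mp hz with rfl | hz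
    · exact he₀
    · rw [mem_singleton] at hz; rw [hz]; exact he₁
  · rintro h
    exact he₀C (h ▸ he₀)
  · rw [card_pair hn₁.symm, hsg]
    exact hsq
  · -- validity of `F \ {e₀, e₁}`
    intro f hf
    right
    obtain ⟨hfF, hfg⟩ := mem_sdiff.mp hf
    have hfe₀ : f ≠ e₀ := fun h => hfg (by rw [h]; simp)
    have hfe₁ : f ≠ e₁ := fun h => hfg (by rw [h]; simp)
    have hnl := hnotl f hfF hfe₀
    have h1l : f.1 ≠ l := fun h => hnl (Or.inl h)
    have h2l : f.2 ≠ l := fun h => hnl (Or.inr h)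
    obtain ⟨fa, hfa, hnea, hta⟩ := exists_other_edge (hdeg _ h1l) hfF (Or.inl rfl)
    obtain ⟨fb, hfb, hneb, htb⟩ := exists_other_edge (hdeg _ h2l) hfF (Or.inr rfl)
    by_cases hga : fa ∈ ({e₀, e₁} : Finset (V × V))
    · by_cases hgb : fb ∈ ({e₀, e₁} : Finset (V × V))
      · exfalso
        -- both endpoints of `f` are endpoints of `e₁`
        have key : ∀ (w : V) (z : V × V), z ∈ ({e₀, e₁} : Finset (V × V)) → (z.1 = w ∨ z.2 = w) →
            w ≠ l → (e₁.1 = w ∨ e₁.2 = w) := by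
          intro w z hz hzw hwl
          rcases mem_insert.mp hz with rfl | hz
          · rcases he₀t w hzw with h | h
            · exact absurd h hwl
            · rw [h]; exact ht₁
          · rw [mem_singleton] at hz
            rw [← hz]; exact hzw
        have k1 := key f.1 fa hga hta h1l
        have k2 := key f.2 fb hgb htb h2l
        have j1 : e₁.1 = f.1 := by
          rcases k1 with h | h
          · exact h
          · exact absurd h.symm (hF.fst_ne_snd hfF he₁)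
        have j2 : e₁.2 = f.2 := by
          rcases k2 with h | h
          · exact absurd h (hF.fst_ne_snd he₁ hfF)
          · exact h
        exact hfe₁ (Prod.ext j1.symm j2.symm)
      · exact ⟨fb, mem_sdiff.mpr ⟨hfb, hgb⟩, hneb, share_of_common (Or.inr rfl) htb⟩
    · exact ⟨fa, mem_sdiff.mpr ⟨hfa, hga⟩, hnea, share_of_common (Or.inl rfl) hta⟩
  · -- an edge outside the cherry at the far endpoint of `e₁`
    have hne₁ := hF.ne he₁
    have hnl₁ := hnotl e₁ he₁ hn₁
    -- the far endpoint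
    obtain ⟨u, hu, huv⟩ : ∃ u, (e₁.1 = u ∨ e₁.2 = u) ∧ u ≠ v := by
      rcases ht₁ with h | h
      · exact ⟨e₁.2, Or.inr rfl, by rw [← h]; exact hne₁.symm⟩
      · exact ⟨e₁.1, Or.inl rfl, by rw [← h]; exact hne₁⟩
    have hul : u ≠ l := by
      rintro rfl
      exact hnl₁ hu
    obtain ⟨f, hf, hfne, hft⟩ := exists_other_edge (hdeg u hul) he₁ hu
    have hfe₀ : f ≠ e₀ := by
      rintro rfl
      rcases he₀t u hft with h | h
      · exact hul h
      · exact huv h
    refine ⟨f, mem_sdiff.mpr ⟨hf, ?_⟩, ?_⟩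
    · intro h
      rcases mem_insert.mp h with h | h
      · exact hfe₀ h
      · exact hfne (mem_singleton.mp h)
    · have huv' : u ∈ verts ({e₀, e₁} : Finset (V × V)) := mem_verts.mpr ⟨e₁, by simp, hu⟩
      rcases hft with h | h
      · exact Or.inl (h ▸ huv')
      · exact Or.inr (h ▸ huv')
  · by_cases hp : ∃ f' ∈ F \ C, f' ≠ e₀ ∧ share e₀ f'
    · left
      intro f hf
      right
      by_cases hfe : f = e₀
      · rw [hfe]; exact hp
      · exact hpartner f hf hfe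
    · right
      refine ⟨e₀, mem_sdiff.mpr ⟨he₀, he₀C⟩, ?_⟩
      intro f hf
      right
      obtain ⟨hfe, hf'⟩ := mem_erase.mp hf
      obtain ⟨f', h1, h2, h3⟩ := hpartner f hf' hfe
      refine ⟨f', mem_erase.mpr ⟨?_, h1⟩, h2, h3⟩
      rintro rfl
      exact hp ⟨f, hf', hfe, share_symm h3⟩

end Vale.Agent.P050
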