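import Vale.Agent.P050.Defs

/-!
# Counting valid edge sets

`cnt E S x = ∑ x ^ |F|` over the subsets `F ⊆ E` all of whose edges meet `S` or share an endpoint with
another edge of `F`.

PROOF SKETCH of `cnt_le`: strong induction on `E.card` (for all `S`).  Put `a = 8 Δ x²`, `b = 2 x`,
`t E S = #{e ∈ E | e.1 ∈ S ∨ e.2 ∈ S}`, `Ve = {e.1, e.2}`.
(R1) for every `e ∈ E`:  `cnt E S x ≤ cnt (E.erase e) S x + x * cnt (E.erase e) (S ∪ Ve) x`.
     (Split the subsets `F` of `E` according to `e ∈ F` (Finset.powerset_insert or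
     Finset.sum_powerset_insert); if `e ∈ F` and `F` is valid for `S` then `F.erase e` is valid for
     `S ∪ Ve`.)
(R2) for every `e ∈ E` which does not meet `S`:
     `cnt E S x ≤ cnt (E.erase e) S x + x² * ∑ e' ∈ (E.erase e).filter (share e),
         cnt ((E.erase e).erase e') (S ∪ Ve ∪ Ve') x`.
     (If `e ∈ F` valid for `S`, some `e' ∈ F`, `e' ≠ e`, shares an endpoint with `e`;
     `(F.erase e).erase e'` is valid for `S ∪ Ve ∪ Ve'`; union bound over `e'`.)
Case 1: some `e ∈ E` meets `S`.  By (R1), the induction hypothesis,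
     `t (E.erase e) S = t E S - 1` and `t (E.erase e) (S ∪ Ve) ≤ t E S - 1 + 2 Δ`:
     `cnt E S x ≤ (1+a)^(m-1) (1+b)^(t-1) (1 + x (1+b)^(2Δ)) ≤ (1+a)^m (1+b)^(t-1) (1 + 2x)`.
Case 2: no edge of `E` meets `S` (`t E S = 0`); `E = ∅` is trivial; otherwise pick `e ∈ E`.  The filter in
     (R2) has at most `2 Δ` elements, `t (..) (S ∪ Ve ∪ Ve') ≤ 4 Δ`, `(1+b)^(4Δ) ≤ 4`, so
     `cnt E S x ≤ (1+a)^(m-1) + x² (2Δ) (1+a)^(m-2) 4 = (1+a)^(m-2) (1 + a + a) ≤ (1+a)^m`
     (if the filter is empty the second term is absent, so `m ≥ 2` may be assumed there).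
-/

namespace Vale.Agent.P050

open Finset

variable {V : Type*} [DecidableEq V]

omit [DecidableEq V] in
open Classical in
theorem cnt_eq (E : Finset (V × V)) (S : Finset V) (x : ℝ) :
    cnt E S x = ∑ F ∈ E.powerset, if Valid S F then x ^ F.card else 0 := by
  unfold cnt
  rw [Finset.sum_filter]

open Classical in
/-- Generating function of the subsets `F` of `E` such that `insert e F` is valid. -/
noncomputable def cntI (E : Finset (V × V)) (S : Finset V) (e : V × V) (x : ℝ) : ℝ :=
  ∑ F ∈ E.powerset, if Valid S (insert e F) then x ^ F.card else 0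

theorem cnt_insert {E : Finset (V × V)} {e : V × V} (he : e ∉ E) (S : Finset V) (x : ℝ) :
    cnt (insert e E) S x = cnt E S x + x * cntI E S e x := by
  classical
  rw [cnt_eq, cnt_eq, Finset.sum_powerset_insert he]
  congr 1
  unfold cntI
  rw [Finset.mul_sum]
  apply Finset.sum_congr rfl
  intro F hF
  have heF : e ∉ F := fun h => he (Finset.mem_powerset.mp hF h)
  rw [Finset.card_insert_of_notMem heF]
  split_ifs
  · ring
  · simp

theorem valid_of_insert {S : Finset V} {e : V × V} {F : Finset (V × V)}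
    (h : Valid S (insert e F)) : Valid (S ∪ {e.1, e.2}) F := by
  intro e1 he1
  rcases h e1 (mem_insert_of_mem he1) with h1 | ⟨e', he', hne, hsh⟩
  · left
    rcases h1 with h1 | h1
    · left; exact mem_union_left _ h1
    · right; exact mem_union_left _ h1
  · rcases mem_insert.mp he' with rfl | he'F
    · left
      rcases hsh with h | h | h | h
      · left; rw [h]; simp
      · left; rw [h]; simp
      · right; rw [h]; simp
      · right; rw [h]; simp
    · right; exact ⟨e', he'F, hne, hsh⟩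

omit [DecidableEq V] in
theorem cnt_nonneg (E : Finset (V × V)) (S : Finset V) {x : ℝ} (hx : 0 ≤ x) : 0 ≤ cnt E S x := by
  classical
  rw [cnt_eq]
  apply Finset.sum_nonneg
  intro F _
  split_ifs <;> positivity

theorem cntI_le (E : Finset (V × V)) (S : Finset V) (e : V × V) {x : ℝ} (hx : 0 ≤ x) :
    cntI E S e x ≤ cnt E (S ∪ {e.1, e.2}) x := by
  classical
  rw [cnt_eq]
  unfold cntI
  apply Finset.sum_le_sum
  intro F _
  by_cases h : Valid S (insert e F)
  · rw [if_pos h, if_pos (valid_of_insert h)]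
  · rw [if_neg h]
    split_ifs <;> positivity

open Classical in
theorem sum_mem_erase (E : Finset (V × V)) (S : Finset V) {e' : V × V} (he' : e' ∈ E) (x : ℝ) :
    (∑ F ∈ E.powerset, if e' ∈ F ∧ Valid S (F.erase e') then x ^ F.card else 0)
      = x * cnt (E.erase e') S x := by
  have hins : insert e' (E.erase e') = E := Finset.insert_erase he'
  have hnot : e' ∉ E.erase e' := Finset.notMem_erase e' E
  conv_lhs => rw [← hins]
  rw [Finset.sum_powerset_insert hnot]
  have h1 : (∑ F ∈ (E.erase e').powerset,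
      if e' ∈ F ∧ Valid S (F.erase e') then x ^ F.card else 0) = 0 := by
    apply Finset.sum_eq_zero
    intro F hF
    have : e' ∉ F := fun h => hnot (Finset.mem_powerset.mp hF h)
    rw [if_neg (fun h => this h.1)]
  rw [h1, zero_add, cnt_eq, Finset.mul_sum]
  apply Finset.sum_congr rfl
  intro F hF
  have hF' : e' ∉ F := fun h => hnot (Finset.mem_powerset.mp hF h)
  rw [Finset.erase_insert hF', Finset.card_insert_of_notMem hF']
  by_cases hv : Valid S F
  · rw [if_pos ⟨Finset.mem_insert_self _ _, hv⟩, if_pos hv]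
    ring
  · rw [if_neg (fun h => hv h.2), if_neg hv]
    simp

open Classical in
theorem cntI_le_sum (E : Finset (V × V)) (S : Finset V) (e : V × V) (heS : ¬ (e.1 ∈ S ∨ e.2 ∈ S))
    {x : ℝ} (hx : 0 ≤ x) :
    cntI E S e x ≤ ∑ e' ∈ E.filter (share e),
      x * cnt (E.erase e') (S ∪ {e.1, e.2} ∪ {e'.1, e'.2}) x := by
  have hstep : cntI E S e x ≤ ∑ F ∈ E.powerset, ∑ e' ∈ E.filter (share e),
      (if e' ∈ F ∧ Valid (S ∪ {e.1, e.2} ∪ {e'.1, e'.2}) (F.erase e') then x ^ F.card else 0) := by
    unfold cntI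
    apply Finset.sum_le_sum
    intro F hF
    have hFE : F ⊆ E := Finset.mem_powerset.mp hF
    have hnn : ∀ e' ∈ E.filter (share e), (0 : ℝ) ≤
        (if e' ∈ F ∧ Valid (S ∪ {e.1, e.2} ∪ {e'.1, e'.2}) (F.erase e')
          then x ^ F.card else 0) := by
      intro e' _
      split_ifs <;> positivity
    by_cases h : Valid S (insert e F)
    · rw [if_pos h]
      rcases h e (Finset.mem_insert_self _ _) with h1 | ⟨e', he', hne, hsh⟩
      · exact absurd h1 heS
      · have he'F : e' ∈ F := by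
          rcases Finset.mem_insert.mp he' with h2 | h2
          · exact absurd h2 hne
          · exact h2
        have hmem : e' ∈ E.filter (share e) := Finset.mem_filter.mpr ⟨hFE he'F, hsh⟩
        have hv1 : Valid (S ∪ {e.1, e.2}) F := valid_of_insert h
        have hv2 : Valid (S ∪ {e.1, e.2} ∪ {e'.1, e'.2}) (F.erase e') := by
          apply valid_of_insert
          rw [Finset.insert_erase he'F]
          exact hv1
        have := Finset.single_le_sum hnn hmem
        rw [if_pos ⟨he'F, hv2⟩] at this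
        exact this
    · rw [if_neg h]
      exact Finset.sum_nonneg hnn
  refine hstep.trans (le_of_eq ?_)
  rw [Finset.sum_comm]
  apply Finset.sum_congr rfl
  intro e' he'
  exact sum_mem_erase E _ (Finset.mem_filter.mp he').1 x

theorem deg_erase_le (E : Finset (V × V)) (e : V × V) (v : V) : deg (E.erase e) v ≤ deg E v := by
  unfold deg
  exact Finset.card_le_card (Finset.filter_subset_filter _ (Finset.erase_subset _ _))

theorem touch_union_le (E : Finset (V × V)) (S : Finset V) (u v : V) :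
    (E.filter (fun e => e.1 ∈ S ∪ {u, v} ∨ e.2 ∈ S ∪ {u, v})).card
      ≤ (E.filter (fun e => e.1 ∈ S ∨ e.2 ∈ S)).card + deg E u + deg E v := by
  unfold deg
  have hsub : E.filter (fun e => e.1 ∈ S ∪ {u, v} ∨ e.2 ∈ S ∪ {u, v})
      ⊆ (E.filter (fun e => e.1 ∈ S ∨ e.2 ∈ S) ∪ E.filter (fun e => e.1 = u ∨ e.2 = u))
        ∪ E.filter (fun e => e.1 = v ∨ e.2 = v) := by
    intro e he
    simp only [Finset.mem_filter, Finset.mem_union, Finset.mem_insert, Finset.mem_singleton] at he ⊢
    obtain ⟨hE, h⟩ := he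
    tauto
  calc _ ≤ _ := Finset.card_le_card hsub
    _ ≤ _ := (Finset.card_union_le _ _).trans (Nat.add_le_add_right (Finset.card_union_le _ _) _)

open Classical in
theorem share_card_le (E : Finset (V × V)) (e : V × V) :
    (E.filter (share e)).card ≤ deg E e.1 + deg E e.2 := by
  unfold deg
  have hsub : E.filter (share e)
      ⊆ E.filter (fun e' => e'.1 = e.1 ∨ e'.2 = e.1) ∪ E.filter (fun e' => e'.1 = e.2 ∨ e'.2 = e.2) := by
    intro e' he'
    simp only [Finset.mem_filter, Finset.mem_union, share] at he' ⊢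
    obtain ⟨hE, h⟩ := he'
    rcases h with h | h | h | h
    · left; exact ⟨hE, Or.inl h.symm⟩
    · left; exact ⟨hE, Or.inr h.symm⟩
    · right; exact ⟨hE, Or.inl h.symm⟩
    · right; exact ⟨hE, Or.inr h.symm⟩
  exact (Finset.card_le_card hsub).trans (Finset.card_union_le _ _)

theorem cnt_le (Δ : ℕ) (x : ℝ) (hx : 0 ≤ x) (hΔ : (1 + 2 * x) ^ (2 * Δ) ≤ 2)
    (E : Finset (V × V)) (hdeg : ∀ v, deg E v ≤ Δ) (S : Finset V) :
    cnt E S x ≤ (1 + 8 * Δ * x ^ 2) ^ E.card *
      (1 + 2 * x) ^ (E.filter (fun e => e.1 ∈ S ∨ e.2 ∈ S)).card := by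
  classical
  induction' hn : E.card using Nat.strong_induction_on with n ih generalizing E S
  have ha1 : (1 : ℝ) ≤ 1 + 8 * Δ * x ^ 2 := by
    have : (0 : ℝ) ≤ 8 * Δ * x ^ 2 := by positivity
    linarith
  have hb1 : (1 : ℝ) ≤ 1 + 2 * x := by linarith
  have ha0 : (0 : ℝ) < 1 + 8 * Δ * x ^ 2 := by linarith
  have hb0 : (0 : ℝ) < 1 + 2 * x := by linarith
  by_cases hcase : ∃ e ∈ E, e.1 ∈ S ∨ e.2 ∈ S
  · -- some edge meets `S`
    obtain ⟨e, heE, heS⟩ := hcase
    set E' := E.erase e with hE'
    have hins : insert e E' = E := Finset.insert_erase heE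
    have hnot : e ∉ E' := Finset.notMem_erase e E
    have hcard : E'.card + 1 = n := by
      rw [← hn, ← hins, Finset.card_insert_of_notMem hnot]
    have hdeg' : ∀ v, deg E' v ≤ Δ := fun v => (deg_erase_le E e v).trans (hdeg v)
    set t' := (E'.filter (fun e => e.1 ∈ S ∨ e.2 ∈ S)).card with ht'
    have ht : (E.filter (fun e => e.1 ∈ S ∨ e.2 ∈ S)).card = t' + 1 := by
      rw [← hins, Finset.filter_insert, if_pos heS, Finset.card_insert_of_notMem]
      intro h
      exact hnot (Finset.mem_filter.mp h).1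
    have h1 := ih E'.card (by omega) E' hdeg' S rfl
    have h2 := ih E'.card (by omega) E' hdeg' (S ∪ {e.1, e.2}) rfl
    have h3 : (E'.filter (fun e' => e'.1 ∈ S ∪ {e.1, e.2} ∨ e'.2 ∈ S ∪ {e.1, e.2})).card
        ≤ t' + 2 * Δ := by
      have := touch_union_le E' S e.1 e.2
      have d1 := hdeg' e.1
      have d2 := hdeg' e.2
      omega
    have h4 : (1 + 2 * x) ^ (E'.filter
        (fun e' => e'.1 ∈ S ∪ {e.1, e.2} ∨ e'.2 ∈ S ∪ {e.1, e.2})).card
        ≤ (1 + 2 * x) ^ t' * 2 := by
      calc _ ≤ (1 + 2 * x) ^ (t' + 2 * Δ) := pow_le_pow_right₀ hb1 h3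
        _ = (1 + 2 * x) ^ t' * (1 + 2 * x) ^ (2 * Δ) := pow_add _ _ _
        _ ≤ (1 + 2 * x) ^ t' * 2 := by gcongr
    have hP : (0 : ℝ) ≤ (1 + 8 * Δ * x ^ 2) ^ E'.card := by positivity
    have hQ : (0 : ℝ) ≤ (1 + 2 * x) ^ t' := by positivity
    rw [ht, ← hcard]
    calc cnt E S x = cnt E' S x + x * cntI E' S e x := by rw [← hins, cnt_insert hnot]
      _ ≤ cnt E' S x + x * cnt E' (S ∪ {e.1, e.2}) x := by
          gcongr
          exact cntI_le E' S e hx
      _ ≤ (1 + 8 * Δ * x ^ 2) ^ E'.card * (1 + 2 * x) ^ t'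
          + x * ((1 + 8 * Δ * x ^ 2) ^ E'.card * ((1 + 2 * x) ^ t' * 2)) := by
          gcongr
          exact h2.trans (by gcongr)
      _ = (1 + 8 * Δ * x ^ 2) ^ E'.card * (1 + 2 * x) ^ (t' + 1) := by ring
      _ ≤ (1 + 8 * Δ * x ^ 2) ^ (E'.card + 1) * (1 + 2 * x) ^ (t' + 1) := by
          gcongr
          omega
  · -- no edge meets `S`
    push Not at hcase
    have ht0 : E.filter (fun e => e.1 ∈ S ∨ e.2 ∈ S) = ∅ := by
      apply Finset.filter_eq_empty_iff.mpr
      intro e he h
      have := hcase e he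
      tauto
    rw [ht0, Finset.card_empty, pow_zero, mul_one]
    rcases Finset.eq_empty_or_nonempty E with hE | ⟨e, heE⟩
    · subst hE
      rw [cnt_eq]
      simp only [Finset.powerset_empty, Finset.sum_singleton, Finset.card_empty, pow_zero]
      have : (1 : ℝ) ≤ (1 + 8 * Δ * x ^ 2) ^ n := one_le_pow₀ ha1
      split_ifs <;> linarith
    · have heS : ¬ (e.1 ∈ S ∨ e.2 ∈ S) := by
        have := hcase e heE
        tauto
      set E' := E.erase e with hE'
      have hins : insert e E' = E := Finset.insert_erase heE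
      have hnot : e ∉ E' := Finset.notMem_erase e E
      have hcard : E'.card + 1 = n := by
        rw [← hn, ← hins, Finset.card_insert_of_notMem hnot]
      have hdeg' : ∀ v, deg E' v ≤ Δ := fun v => (deg_erase_le E e v).trans (hdeg v)
      have hsubE : E' ⊆ E := Finset.erase_subset _ _
      have ht0' : E'.filter (fun e => e.1 ∈ S ∨ e.2 ∈ S) = ∅ := by
        apply Finset.filter_eq_empty_iff.mpr
        intro e1 he1 h
        have := hcase e1 (hsubE he1)
        tauto
      have h1 := ih E'.card (by omega) E' hdeg' S rfl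
      rw [ht0', Finset.card_empty, pow_zero, mul_one] at h1
      have hfour : (1 + 2 * x) ^ (4 * Δ) ≤ 4 := by
        have e4 : (1 + 2 * x) ^ (4 * Δ) = (1 + 2 * x) ^ (2 * Δ) * (1 + 2 * x) ^ (2 * Δ) := by
          rw [← pow_add]
          congr 1
          ring
        rw [e4]
        have hp : (0 : ℝ) ≤ (1 + 2 * x) ^ (2 * Δ) := by positivity
        nlinarith
      have hterm : ∀ e' ∈ E'.filter (share e),
          x * cnt (E'.erase e') (S ∪ {e.1, e.2} ∪ {e'.1, e'.2}) x
            ≤ x * ((1 + 8 * Δ * x ^ 2) ^ E'.card * 4) := by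
        intro e' he'
        have he'E : e' ∈ E' := (Finset.mem_filter.mp he').1
        set E'' := E'.erase e' with hE''
        have hc2 : E''.card < E'.card := Finset.card_erase_lt_of_mem he'E
        have hdeg'' : ∀ v, deg E'' v ≤ Δ := fun v => (deg_erase_le E' e' v).trans (hdeg' v)
        have h2 := ih E''.card (by omega) E'' hdeg'' (S ∪ {e.1, e.2} ∪ {e'.1, e'.2}) rfl
        have ht0'' : E''.filter (fun e => e.1 ∈ S ∨ e.2 ∈ S) = ∅ := by
          apply Finset.filter_eq_empty_iff.mpr
          intro e1 he1 h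
          have := hcase e1 (hsubE (Finset.erase_subset _ _ he1))
          tauto
        have h3 : (E''.filter (fun e1 => e1.1 ∈ S ∪ {e.1, e.2} ∪ {e'.1, e'.2}
            ∨ e1.2 ∈ S ∪ {e.1, e.2} ∪ {e'.1, e'.2})).card ≤ 4 * Δ := by
          have q1 := touch_union_le E'' (S ∪ {e.1, e.2}) e'.1 e'.2
          have q2 := touch_union_le E'' S e.1 e.2
          rw [ht0'', Finset.card_empty] at q2
          have d1 := hdeg'' e.1
          have d2 := hdeg'' e.2
          have d3 := hdeg'' e'.1
          have d4 := hdeg'' e'.2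
          omega
        apply mul_le_mul_of_nonneg_left _ hx
        calc _ ≤ _ := h2
          _ ≤ (1 + 8 * Δ * x ^ 2) ^ E'.card * (1 + 2 * x) ^ (4 * Δ) := by
              apply mul_le_mul (pow_le_pow_right₀ ha1 hc2.le) (pow_le_pow_right₀ hb1 h3)
                (by positivity) (by positivity)
          _ ≤ (1 + 8 * Δ * x ^ 2) ^ E'.card * 4 := by gcongr
      have hnum : ((E'.filter (share e)).card : ℝ) ≤ 2 * Δ := by
        have := share_card_le E' e
        have d1 := hdeg' e.1
        have d2 := hdeg' e.2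
        have : (E'.filter (share e)).card ≤ 2 * Δ := by omega
        exact_mod_cast this
      have hP : (0 : ℝ) ≤ (1 + 8 * Δ * x ^ 2) ^ E'.card := by positivity
      rw [← hcard]
      calc cnt E S x = cnt E' S x + x * cntI E' S e x := by rw [← hins, cnt_insert hnot]
        _ ≤ (1 + 8 * Δ * x ^ 2) ^ E'.card
            + x * ∑ e' ∈ E'.filter (share e), x * ((1 + 8 * Δ * x ^ 2) ^ E'.card * 4) := by
            gcongr
            exact (cntI_le_sum E' S e heS hx).trans (Finset.sum_le_sum hterm)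
        _ = (1 + 8 * Δ * x ^ 2) ^ E'.card
            + ((E'.filter (share e)).card : ℝ) * (x * (x * ((1 + 8 * Δ * x ^ 2) ^ E'.card * 4))) := by
            rw [Finset.sum_const, nsmul_eq_mul]
            ring
        _ ≤ (1 + 8 * Δ * x ^ 2) ^ E'.card
            + (2 * Δ) * (x * (x * ((1 + 8 * Δ * x ^ 2) ^ E'.card * 4))) := by
            gcongr
        _ = (1 + 8 * Δ * x ^ 2) ^ (E'.card + 1) := by ring

end Vale.Agent.P050
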