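import Vale.Agent.P050.CountApps

/-!
# Consequences of the counting bound, part 2 (see the sketches of the last items)

All statements are purely combinatorial.  `verts g` is the set of endpoints of the edges of `g`.
Tools: `sum_sdiff_le` (Charge.lean) passes from supersets `F ⊇ g` to the differences `F \ g`;
`sum_le_cover` below is a union bound; `cnt` is by definition the sum of `x ^ card` over
`E.powerset.filter (Valid S)` (classical decidability; use `unfold cnt`, `classical`, and `convert`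
or `Finset.sum_congr` / `Finset.filter_congr_decidable` if instances differ).

SKETCHES.
* `sum_le_cover`: `∑ p ∈ Q, ∑ F ∈ X.filter (R p), φ F = ∑ F ∈ X, (#{p ∈ Q | R p F}) * φ F` (Finset.sum_comm' or
  sum_filter + sum_comm) and the cardinality is at least one.
* `sum_valid_supersets`: apply `sum_sdiff_le` with `T = (E.powerset.filter (Valid (verts g))).erase ∅`.  If `F` is
  valid for `∅` and `f ∈ F \ g`, its partner `f' ∈ F` either lies in `g` (then `f` has an endpoint in `verts g`)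
  or in `F \ g`.  The sum over `T` is `cnt E (verts g) x - 1` (the empty set is valid).
* `sum_plain_supersets`: the same with `T = (E.powerset.filter (Valid ∅)).erase ∅`.
* `sum_pendant_supersets`: split `A` according to `Valid ∅ (F \ C)`; the first part is bounded as in
  `sum_plain_supersets`; cover the second part by `e₀ ∈ E` with `R e₀ F := e₀ ∈ F \ C ∧ Valid ∅ ((F \ C).erase e₀)`;
  for fixed `e₀` use `sum_sdiff_le` with `g := insert e₀ C`, `(F \ C).erase e₀ = F \ insert e₀ C`,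
  `x ^ (|F| - |C|) = x * x ^ (|F| - |insert e₀ C|)`, `T = E.powerset.filter (Valid ∅)`.
* `card_touch_le`: `{e ∈ E | e.1 ∈ S ∨ e.2 ∈ S} ⊆ S.biUnion (fun v => {e ∈ E | e.1 = v ∨ e.2 = v})`, card_biUnion_le.
* `sum_rooted_supersets`: first `sum_sdiff_le` to pass to `F₂ = F \ g` in
  `X = {F₂ ⊆ E | Valid ∅ F₂ ∧ ∃ f ∈ F₂, f.1 ∈ S ∨ f.2 ∈ S}` with `S = verts g`.  Cover `X` by the pairs `(f, f')`,
  `f ∈ {e ∈ E | e.1 ∈ S ∨ e.2 ∈ S}` (at most `|S| Δ ≤ 3 Δ` choices), `f' ∈ {e ∈ E | e ≠ f ∧ share f e}`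
  (at most `2 Δ` choices), `R (f,f') F₂ := f ∈ F₂ ∧ f' ∈ F₂`.  For a fixed pair, `sum_sdiff_le` with
  `g := {f, f'}` (card 2): `F₂ \ {f,f'}` is valid for `verts {f,f'}`, so the inner sum is at most
  `x² cnt E (verts {f,f'}) x ≤ x² P (1+2x)^(4Δ) ≤ 4 x² P` by `cnt_le`, `card_touch_le` (`|verts {f,f'}| ≤ 4`) and
  `(1+2x)^(4Δ) = ((1+2x)^(2Δ))² ≤ 4`.
-/

namespace Vale.Agent.P050

open Finset

variable {V : Type*} [DecidableEq V]

omit [DecidableEq V] in
/-- the sum of `x ^ card` over a family of valid subsets of `E` is at most `cnt` -/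
private theorem sum_le_cnt (E : Finset (V × V)) (S : Finset V) (x : ℝ) (hx : 0 ≤ x)
    (T : Finset (Finset (V × V))) (hT : ∀ F ∈ T, F ⊆ E ∧ Valid S F) :
    ∑ F ∈ T, x ^ F.card ≤ cnt E S x := by
  classical
  unfold cnt
  apply sum_le_sum_of_subset_of_nonneg
  · intro F hF
    exact mem_filter.mpr ⟨mem_powerset.mpr (hT F hF).1, (hT F hF).2⟩
  · intro _ _ _
    exact pow_nonneg hx _

private theorem valid_sdiff_aux {F g : Finset (V × V)} (h : Valid ∅ F) : Valid (verts g) (F \ g) := by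
  intro e he
  obtain ⟨heF, heg⟩ := mem_sdiff.1 he
  rcases h e heF with h1 | ⟨e', he', hne, hsh⟩
  · rcases h1 with h1 | h1 <;> exact absurd h1 (notMem_empty _)
  · by_cases hg : e' ∈ g
    · left
      have h1 : e'.1 ∈ verts g := mem_union_left _ (mem_image_of_mem _ hg)
      have h2 : e'.2 ∈ verts g := mem_union_right _ (mem_image_of_mem _ hg)
      rcases hsh with h | h | h | h
      · left; rw [h]; exact h1
      · left; rw [h]; exact h2
      · right; rw [h]; exact h1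
      · right; rw [h]; exact h2
    · right
      exact ⟨e', mem_sdiff.2 ⟨he', hg⟩, hne, hsh⟩

theorem sum_pendant_supersets (E C : Finset (V × V)) (x : ℝ) (hx : 0 ≤ x)
    (A : Finset (Finset (V × V))) (hA : ∀ F ∈ A, F ⊆ E ∧ C ⊆ F ∧ F ≠ C ∧
      (Valid ∅ (F \ C) ∨ ∃ e₀ ∈ F \ C, Valid ∅ ((F \ C).erase e₀))) :
    ∑ F ∈ A, x ^ (F.card - C.card) ≤ (cnt E ∅ x - 1) + E.card * x * cnt E ∅ x := by
  classical
  rw [← sum_filter_add_sum_filter_not A (fun F => Valid ∅ (F \ C))]
  refine add_le_add ?_ ?_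
  · refine sum_plain_supersets E C x hx _ fun F hF => ?_
    obtain ⟨hFA, hv⟩ := mem_filter.mp hF
    obtain ⟨h1, h2, h3, _⟩ := hA F hFA
    exact ⟨h1, h2, h3, hv⟩
  · set A2 := A.filter (fun F => ¬ Valid ∅ (F \ C)) with hA2
    have hcov := sum_le_cover A2 E
      (fun e₀ F => e₀ ∈ F \ C ∧ Valid ∅ ((F \ C).erase e₀))
      (fun F => x ^ (F.card - C.card)) (fun F _ => pow_nonneg hx _) (by
        intro F hF
        obtain ⟨hFA, hv⟩ := mem_filter.mp hF
        obtain ⟨h1, h2, h3, h4⟩ := hA F hFA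
        rcases h4 with h4 | ⟨e₀, he₀, h4⟩
        · exact absurd h4 hv
        · exact ⟨e₀, h1 (mem_sdiff.mp he₀).1, he₀, h4⟩)
    refine hcov.trans ?_
    have hone : ∀ e₀ ∈ E, ∑ F ∈ A2.filter
        (fun F => e₀ ∈ F \ C ∧ Valid ∅ ((F \ C).erase e₀)), x ^ (F.card - C.card)
        ≤ x * cnt E ∅ x := by
      intro e₀ _
      have h1 : ∑ F ∈ A2.filter
          (fun F => e₀ ∈ F \ C ∧ Valid ∅ ((F \ C).erase e₀)), x ^ (F.card - C.card)
          = x * ∑ F ∈ A2.filter
          (fun F => e₀ ∈ F \ C ∧ Valid ∅ ((F \ C).erase e₀)),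
            x ^ (F.card - (insert e₀ C).card) := by
        rw [mul_sum]
        refine sum_congr rfl fun F hF => ?_
        obtain ⟨hF2, he₀, _⟩ := mem_filter.mp hF
        obtain ⟨hFA, _⟩ := mem_filter.mp hF2
        obtain ⟨_, h2, _, _⟩ := hA F hFA
        obtain ⟨heF, heC⟩ := mem_sdiff.mp he₀
        have hsub : insert e₀ C ⊆ F := insert_subset heF h2
        have hcard := card_le_card hsub
        rw [card_insert_of_notMem heC] at hcard ⊢
        have : F.card - C.card = (F.card - (C.card + 1)) + 1 := by omega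
        rw [this, pow_succ]
        ring
      rw [h1]
      refine mul_le_mul_of_nonneg_left ?_ hx
      refine (sum_sdiff_le (insert e₀ C) _ (E.powerset.filter (Valid ∅)) x hx ?_).trans ?_
      · intro F hF
        obtain ⟨hF2, he₀, hv⟩ := mem_filter.mp hF
        obtain ⟨hFA, _⟩ := mem_filter.mp hF2
        obtain ⟨h1, h2, _, _⟩ := hA F hFA
        obtain ⟨heF, heC⟩ := mem_sdiff.mp he₀
        refine ⟨insert_subset heF h2, mem_filter.mpr ⟨mem_powerset.mpr (sdiff_subset.trans h1), ?_⟩⟩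
        rw [sdiff_insert]
        exact hv
      · exact sum_le_cnt E ∅ x hx _ fun F hF =>
          ⟨mem_powerset.mp (mem_filter.mp hF).1, (mem_filter.mp hF).2⟩
    calc _ ≤ ∑ _e₀ ∈ E, x * cnt E ∅ x := sum_le_sum hone
      _ = E.card * x * cnt E ∅ x := by rw [sum_const, nsmul_eq_mul]; ring

private theorem card_verts_pair (f f' : V × V) : (verts ({f, f'} : Finset (V × V))).card ≤ 4 := by
  unfold verts
  have h0 : ({f, f'} : Finset (V × V)).card ≤ 2 := card_le_two
  have h1 : (({f, f'} : Finset (V × V)).image Prod.fst).card ≤ 2 := card_image_le.trans h0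
  have h2 : (({f, f'} : Finset (V × V)).image Prod.snd).card ≤ 2 := card_image_le.trans h0
  have := card_union_le (({f, f'} : Finset (V × V)).image Prod.fst)
    (({f, f'} : Finset (V × V)).image Prod.snd)
  omega

theorem sum_rooted_supersets (Δ : ℕ) (x : ℝ) (hx : 0 ≤ x) (hΔ : (1 + 2 * x) ^ (2 * Δ) ≤ 2)
    (E : Finset (V × V)) (hdeg : ∀ v, deg E v ≤ Δ) (g : Finset (V × V)) (hg : (verts g).card ≤ 3)
    (A : Finset (Finset (V × V))) (hA : ∀ F ∈ A, F ⊆ E ∧ g ⊆ F ∧ Valid ∅ (F \ g) ∧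
      ∃ f ∈ F \ g, f.1 ∈ verts g ∨ f.2 ∈ verts g) :
    ∑ F ∈ A, x ^ (F.card - g.card) ≤ 24 * (Δ : ℝ) ^ 2 * x ^ 2 * (1 + 8 * Δ * x ^ 2) ^ E.card := by
  classical
  set S := verts g with hS
  set P : ℝ := (1 + 8 * Δ * x ^ 2) ^ E.card with hP
  have hP0 : 0 ≤ P := by positivity
  set X : Finset (Finset (V × V)) :=
    E.powerset.filter (fun F₂ => Valid ∅ F₂ ∧ ∃ f ∈ F₂, f.1 ∈ S ∨ f.2 ∈ S) with hX
  have step1 : ∑ F ∈ A, x ^ (F.card - g.card) ≤ ∑ F₂ ∈ X, x ^ F₂.card := by
    refine sum_sdiff_le g A X x hx fun F hF => ?_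
    obtain ⟨h1, h2, h3, h4⟩ := hA F hF
    exact ⟨h2, mem_filter.mpr ⟨mem_powerset.mpr (sdiff_subset.trans h1), h3, h4⟩⟩
  refine step1.trans ?_
  set T1 := E.filter (fun e => e.1 ∈ S ∨ e.2 ∈ S) with hT1
  have hT1card : T1.card ≤ 3 * Δ :=
    (card_touch_le Δ E hdeg S).trans (Nat.mul_le_mul_right _ hg)
  -- first cover
  have cov1 := sum_le_cover X T1 (fun f F₂ => f ∈ F₂) (fun F₂ => x ^ F₂.card)
    (fun F _ => pow_nonneg hx _) (by
      intro F₂ hF₂
      obtain ⟨hsub, _, f, hf, hfS⟩ := mem_filter.mp hF₂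
      exact ⟨f, mem_filter.mpr ⟨mem_powerset.mp hsub hf, hfS⟩, hf⟩)
  refine cov1.trans ?_
  -- bound for a fixed pair
  have hpair : ∀ f f' : V × V,
      ∑ F₂ ∈ (X.filter (fun F₂ => f ∈ F₂)).filter (fun F₂ => f' ∈ F₂ ∧ f' ≠ f), x ^ F₂.card
        ≤ 4 * x ^ 2 * P := by
    intro f f'
    by_cases hff : f' = f
    · have : (X.filter (fun F₂ => f ∈ F₂)).filter (fun F₂ => f' ∈ F₂ ∧ f' ≠ f) = ∅ := by
        apply filter_false_of_mem
        intro F₂ _ h
        exact h.2 hff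
      rw [this, sum_empty]
      positivity
    · have hcard2 : ({f, f'} : Finset (V × V)).card = 2 := card_pair (Ne.symm hff)
      have h1 : ∑ F₂ ∈ (X.filter (fun F₂ => f ∈ F₂)).filter (fun F₂ => f' ∈ F₂ ∧ f' ≠ f),
          x ^ F₂.card
          = x ^ 2 * ∑ F₂ ∈ (X.filter (fun F₂ => f ∈ F₂)).filter (fun F₂ => f' ∈ F₂ ∧ f' ≠ f),
            x ^ (F₂.card - ({f, f'} : Finset (V × V)).card) := by
        rw [mul_sum]
        refine sum_congr rfl fun F₂ hF₂ => ?_
        obtain ⟨hF1, hf', _⟩ := mem_filter.mp hF₂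
        obtain ⟨_, hf⟩ := mem_filter.mp hF1
        have hsub : ({f, f'} : Finset (V × V)) ⊆ F₂ := by
          intro e he
          rcases mem_insert.mp he with rfl | he
          · exact hf
          · rw [mem_singleton.mp he]; exact hf'
        have hc := card_le_card hsub
        rw [hcard2] at hc ⊢
        rw [← pow_add]
        congr 1
        omega
      rw [h1]
      have h2 : ∑ F₂ ∈ (X.filter (fun F₂ => f ∈ F₂)).filter (fun F₂ => f' ∈ F₂ ∧ f' ≠ f),
            x ^ (F₂.card - ({f, f'} : Finset (V × V)).card)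
          ≤ cnt E (verts {f, f'}) x := by
        refine (sum_sdiff_le ({f, f'} : Finset (V × V)) _
          (E.powerset.filter (Valid (verts {f, f'}))) x hx ?_).trans ?_
        · intro F₂ hF₂
          obtain ⟨hF1, hf', _⟩ := mem_filter.mp hF₂
          obtain ⟨hFX, hf⟩ := mem_filter.mp hF1
          obtain ⟨hsubE, hv, _⟩ := mem_filter.mp hFX
          refine ⟨?_, mem_filter.mpr ⟨mem_powerset.mpr
            (sdiff_subset.trans (mem_powerset.mp hsubE)), valid_sdiff_aux hv⟩⟩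
          intro e he
          rcases mem_insert.mp he with rfl | he
          · exact hf
          · rw [mem_singleton.mp he]; exact hf'
        · exact sum_le_cnt E _ x hx _ fun F hF =>
            ⟨mem_powerset.mp (mem_filter.mp hF).1, (mem_filter.mp hF).2⟩
      have h3 : cnt E (verts {f, f'}) x ≤ P * 4 := by
        refine (cnt_le Δ x hx hΔ E hdeg (verts {f, f'})).trans ?_
        refine mul_le_mul_of_nonneg_left ?_ hP0
        have hc : (E.filter (fun e => e.1 ∈ verts {f, f'} ∨ e.2 ∈ verts {f, f'})).card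
            ≤ 2 * Δ + 2 * Δ := by
          have := (card_touch_le Δ E hdeg (verts {f, f'})).trans
            (Nat.mul_le_mul_right _ (card_verts_pair f f'))
          omega
        have hb1 : (1 : ℝ) ≤ 1 + 2 * x := by linarith
        calc (1 + 2 * x) ^ (E.filter (fun e => e.1 ∈ verts {f, f'} ∨ e.2 ∈ verts {f, f'})).card
            ≤ (1 + 2 * x) ^ (2 * Δ + 2 * Δ) := pow_le_pow_right₀ hb1 hc
          _ = (1 + 2 * x) ^ (2 * Δ) * (1 + 2 * x) ^ (2 * Δ) := pow_add _ _ _
          _ ≤ 2 * 2 := by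
              have h0 : (0 : ℝ) ≤ (1 + 2 * x) ^ (2 * Δ) := by positivity
              exact mul_le_mul hΔ hΔ h0 (by norm_num)
          _ = 4 := by norm_num
      calc x ^ 2 * _ ≤ x ^ 2 * (P * 4) :=
            mul_le_mul_of_nonneg_left (h2.trans h3) (by positivity)
        _ = 4 * x ^ 2 * P := by ring
  -- second cover, for a fixed `f`
  have hone : ∀ f ∈ T1, ∑ F₂ ∈ X.filter (fun F₂ => f ∈ F₂), x ^ F₂.card
      ≤ (2 * Δ : ℝ) * (4 * x ^ 2 * P) := by
    intro f _
    have cov2 := sum_le_cover (X.filter (fun F₂ => f ∈ F₂)) (E.filter (share f))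
      (fun f' F₂ => f' ∈ F₂ ∧ f' ≠ f) (fun F₂ => x ^ F₂.card)
      (fun F _ => pow_nonneg hx _) (by
        intro F₂ hF₂
        obtain ⟨hFX, hf⟩ := mem_filter.mp hF₂
        obtain ⟨hsubE, hv, _⟩ := mem_filter.mp hFX
        rcases hv f hf with h1 | ⟨f', hf', hne, hsh⟩
        · rcases h1 with h1 | h1 <;> exact absurd h1 (notMem_empty _)
        · exact ⟨f', mem_filter.mpr ⟨mem_powerset.mp hsubE hf', hsh⟩, hf', hne⟩)
    refine cov2.trans ?_
    have hc : ((E.filter (share f)).card : ℝ) ≤ 2 * Δ := by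
      have := (share_card_le E f).trans (Nat.add_le_add (hdeg f.1) (hdeg f.2))
      have h2 : (E.filter (share f)).card ≤ 2 * Δ := by omega
      exact_mod_cast h2
    calc _ ≤ ∑ _f' ∈ E.filter (share f), 4 * x ^ 2 * P := sum_le_sum fun f' _ => hpair f f'
      _ = (E.filter (share f)).card * (4 * x ^ 2 * P) := by rw [sum_const, nsmul_eq_mul]
      _ ≤ (2 * Δ : ℝ) * (4 * x ^ 2 * P) := mul_le_mul_of_nonneg_right hc (by positivity)
  have hc1 : (T1.card : ℝ) ≤ 3 * Δ := by exact_mod_cast hT1card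
  calc _ ≤ ∑ _f ∈ T1, (2 * Δ : ℝ) * (4 * x ^ 2 * P) := sum_le_sum hone
    _ = T1.card * ((2 * Δ : ℝ) * (4 * x ^ 2 * P)) := by rw [sum_const, nsmul_eq_mul]
    _ ≤ (3 * Δ : ℝ) * ((2 * Δ : ℝ) * (4 * x ^ 2 * P)) :=
        mul_le_mul_of_nonneg_right hc1 (by positivity)
    _ = 24 * (Δ : ℝ) ^ 2 * x ^ 2 * P := by ring

end Vale.Agent.P050
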