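import Vale.Agent.P050.Defs

/-!
# The edge set of a chordless cycle

PROOF SKETCH.  Let `φ i := if (c i, c (i+1)) ∈ F then (c i, c (i+1)) else (c (i+1), c i)`.
`φ i ∈ cycEdges F c` by `hc.adj`.  `φ` is injective: if `φ i = φ j` then
`{c i, c (i+1)} = {c j, c (j+1)}`, so by injectivity of `c` either `i = j` or (`i = j+1` and
`i+1 = j`), and the latter gives `i + 2 = i` in `Fin n`, impossible for `n ≥ 3`.
`φ` is onto `cycEdges F c`: an edge `e ∈ F` with `e.1 = c i`, `e.2 = c j` satisfies `Nbr F (c i) (c j)`, so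
`j = i+1` (then `e = φ i`) or `i = j+1` (then `e = (c (j+1), c j)`, and `(c j, c (j+1)) ∉ F` because of the
orientation, so `e = φ j`).  Conclude with Finset.prod_bij or Finset.prod_image
(`cycEdges F c = univ.image φ`) and Finset.card_image_of_injective.
-/

namespace Vale.Agent.P050

open Finset

variable {V : Type*} [DecidableEq V]

/-- The oriented edge of `F` joining `c i` and `c (i+1)`. -/
def cycEd (F : Finset (V × V)) {n : ℕ} [NeZero n] (c : Fin n → V) (i : Fin n) : V × V :=
  if (c i, c (i + 1)) ∈ F then (c i, c (i + 1)) else (c (i + 1), c i)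

theorem fin_add_two_ne {n : ℕ} [NeZero n] (hn : 3 ≤ n) (i : Fin n) : i + 1 + 1 ≠ i := by
  intro h
  have h2 : (1 + 1 : Fin n) = 0 := by
    rw [add_assoc] at h
    exact add_eq_left.mp h
  have h3 := congrArg Fin.val h2
  rw [Fin.val_add, Fin.val_one', Nat.mod_eq_of_lt (by omega : 1 < n),
    Nat.mod_eq_of_lt (by omega : 1 + 1 < n)] at h3
  simp at h3

theorem cycEd_injective (F : Finset (V × V))
    (n : ℕ) [NeZero n] (hn : 3 ≤ n) (c : Fin n → V) (hc : IsCyc F n c) :
    Function.Injective (cycEd F c) := by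
  intro i j hij
  unfold cycEd at hij
  split_ifs at hij with h1 h2 h2
  · exact hc.inj (congrArg Prod.fst hij)
  · have a := hc.inj (congrArg Prod.fst hij)
    have b := hc.inj (congrArg Prod.snd hij)
    exfalso
    apply fin_add_two_ne hn j
    rw [← a, b]
  · have a := hc.inj (congrArg Prod.fst hij)
    have b := hc.inj (congrArg Prod.snd hij)
    exfalso
    apply fin_add_two_ne hn i
    rw [a, ← b]
  · exact hc.inj (congrArg Prod.snd hij)

theorem cycEdges_eq_image (col : V → Bool) (F : Finset (V × V)) (hcol : Oriented col F)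
    (n : ℕ) [NeZero n] (c : Fin n → V) (hc : IsCyc F n c) :
    cycEdges F c = univ.image (cycEd F c) := by
  ext e
  simp only [cycEdges, mem_filter, mem_image, mem_univ, true_and]
  constructor
  · rintro ⟨heF, ⟨i, hi⟩, ⟨j, hj⟩⟩
    have he : e = (c i, c j) := by rw [hi, hj]
    have hN : Nbr F (c i) (c j) := Or.inl (he ▸ heF)
    rcases hc.chordless i j hN with h | h
    · refine ⟨i, ?_⟩
      subst h
      unfold cycEd
      rw [if_pos (he ▸ heF), he]
    · refine ⟨j, ?_⟩
      subst h
      unfold cycEd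
      have hnot : (c j, c (j + 1)) ∉ F := by
        intro hmem
        have h1 := hcol _ hmem
        have h2 := hcol _ (he ▸ heF : (c (j + 1), c j) ∈ F)
        simp only at h1 h2
        rw [h1.1] at h2
        exact absurd h2.2 (by simp)
      rw [if_neg hnot, he]
  · rintro ⟨i, rfl⟩
    unfold cycEd
    split_ifs with h
    · exact ⟨h, ⟨i, rfl⟩, ⟨i + 1, rfl⟩⟩
    · have := hc.adj i
      rcases this with h' | h'
      · exact absurd h' h
      · exact ⟨h', ⟨i + 1, rfl⟩, ⟨i, rfl⟩⟩

theorem prod_cycEdges (col : V → Bool) (F : Finset (V × V)) (hcol : Oriented col F)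
    (n : ℕ) [NeZero n] (hn : 3 ≤ n) (c : Fin n → V) (hc : IsCyc F n c)
    (φ : V → V → ℝ) (hφ : ∀ a b, φ a b = φ b a) :
    ∏ e ∈ cycEdges F c, φ e.1 e.2 = ∏ i, φ (c i) (c (i + 1)) := by
  rw [cycEdges_eq_image col F hcol n c hc,
    Finset.prod_image (fun i _ j _ h => cycEd_injective F n hn c hc h)]
  refine Finset.prod_congr rfl (fun i _ => ?_)
  unfold cycEd
  split_ifs with h
  · rfl
  · exact hφ _ _

theorem card_cycEdges (col : V → Bool) (F : Finset (V × V)) (hcol : Oriented col F)
    (n : ℕ) [NeZero n] (hn : 3 ≤ n) (c : Fin n → V) (hc : IsCyc F n c) :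
    (cycEdges F c).card = n := by
  rw [cycEdges_eq_image col F hcol n c hc,
    Finset.card_image_of_injective _ (cycEd_injective F n hn c hc)]
  simp

end Vale.Agent.P050
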