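import Vale.Agent.P050.TraceList

/-!
# The trace inequality as an inequality between sums over closed sequences

PROOF SKETCH.
(a) `trace_ofFn`: for matrices `M i`, `i : Fin n`, `n ≥ 1`,
    `trace (List.ofFn M).prod = ∑ w : Fin n → Ω, ∏ i, M i (w i) (w (i+1))`.
    Write `n = k + 1`.  Linear version, by induction on `k` (List.ofFn_succ, Matrix.mul_apply,
    Fin.consEquiv or Fin.snocEquiv or Fin.insertNthEquiv to split the sum over `Fin (k+1) → Ω`,
    Fin.prod_univ_succ or Fin.prod_univ_castSucc):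
    `(List.ofFn M).prod a b = ∑ w : Fin k → Ω, (product along the path a, w 0, ..., w (k-1), b)`.
    Any equivalent formulation is fine.  In `Fin (k+1)`: `i.castSucc + 1 = i.succ`,
    `Fin.last k + 1 = 0`.
(b) `trace_ineq`: if some `b i = 0` then `g i = 0` and both sides vanish; if `Ω` is empty both sides
    vanish; otherwise all `b i > 0`, apply `trace_list_le` to `L = List.ofFn (fun i => g i / b i)`
    with `U` as a matrix (`Matrix.of U`), `M i = diagonal (g i / b i) * U`,
    `M i a c = g i a / b i * U a c` (Matrix.diagonal_mul), and to the constant list for the right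
    side (`U ^ n = (List.replicate n U).prod`, or use (a) with `M i = U`, List.ofFn_const).
-/

namespace Vale.Agent.P050

open Matrix Finset

theorem prod_ofFn_apply {Ω : Type*} [Fintype Ω] [DecidableEq Ω] (n : ℕ)
    (M : Fin n → Matrix Ω Ω ℝ) (a b : Ω) :
    (List.ofFn M).prod a b = ∑ w : Fin (n+1) → Ω,
      if w 0 = a ∧ w (Fin.last n) = b then ∏ i : Fin n, M i (w i.castSucc) (w i.succ) else 0 := by
  induction n generalizing a b with
  | zero =>
    rw [← (Equiv.funUnique (Fin 1) Ω).symm.sum_comp]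
    rw [Finset.sum_eq_single a]
    · simp [Matrix.one_apply]
    · intro x _ hx
      rw [if_neg]
      rintro ⟨h1, -⟩
      exact hx h1
    · simp
  | succ n ih =>
    rw [List.ofFn_succ, List.prod_cons, Matrix.mul_apply]
    simp_rw [ih]
    rw [← (Fin.consEquiv (fun _ => Ω)).sum_comp]
    rw [Fintype.sum_prod_type]
    simp only [Fin.consEquiv_apply, Fin.cons_zero, Fin.prod_univ_succ, Fin.castSucc_zero,
      Fin.cons_succ]
    rw [Finset.sum_eq_single (a := a) (s := Finset.univ) (f := fun x => ∑ x_1 : Fin (n+1) → Ω,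
        if x = a ∧ (Fin.cons x x_1 : Fin (n+2) → Ω) (Fin.last (n + 1)) = b then
          M 0 x (x_1 0) * ∏ i : Fin n, M i.succ ((Fin.cons x x_1 : Fin (n+2) → Ω) i.succ.castSucc)
            (x_1 i.succ)
        else 0)]
    · simp_rw [Finset.mul_sum]
      rw [Finset.sum_comm]
      apply Finset.sum_congr rfl
      intro w _
      rw [Finset.sum_eq_single (w 0)]
      · have h1 : (Fin.cons a w : Fin (n+2) → Ω) (Fin.last (n + 1)) = w (Fin.last n) := by
          rw [← Fin.succ_last, Fin.cons_succ]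
        have h2 : ∀ i : Fin n, (Fin.cons a w : Fin (n+2) → Ω) i.succ.castSucc = w i.castSucc := by
          intro i
          rw [← Fin.succ_castSucc, Fin.cons_succ]
        simp only [h1, h2, true_and]
        split_ifs <;> simp
      · intro x _ hx
        rw [if_neg, mul_zero]
        rintro ⟨h1, -⟩
        exact hx h1.symm
      · simp
    · intro x _ hx
      apply Finset.sum_eq_zero
      intro w _
      rw [if_neg]
      rintro ⟨h1, -⟩
      exact hx h1
    · simp

theorem snoc_succ_eq {Ω : Type*} (k : ℕ) (w : Fin (k+1) → Ω) (i : Fin (k+1)) :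
    (Fin.snoc w (w 0) : Fin (k+2) → Ω) i.succ = w (i + 1) := by
  induction i using Fin.lastCases with
  | last =>
    rw [Fin.succ_last, Fin.snoc_last, Fin.last_add_one]
  | cast j =>
    rw [Fin.succ_castSucc, Fin.snoc_castSucc, Fin.coeSucc_eq_succ]

theorem trace_ofFn {Ω : Type*} [Fintype Ω] [DecidableEq Ω] (n : ℕ) [NeZero n]
    (M : Fin n → Matrix Ω Ω ℝ) :
    Matrix.trace (List.ofFn M).prod = ∑ w : Fin n → Ω, ∏ i, M i (w i) (w (i + 1)) := by
  obtain ⟨k, rfl⟩ : ∃ k, n = k + 1 := ⟨n - 1, by have := NeZero.pos n; omega⟩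
  rw [Matrix.trace]
  simp only [Matrix.diag_apply, prod_ofFn_apply]
  rw [Finset.sum_comm]
  rw [← (Fin.snocEquiv (fun _ => Ω)).sum_comp]
  rw [Fintype.sum_prod_type, Finset.sum_comm]
  apply Finset.sum_congr rfl
  intro w _
  simp only [Fin.snocEquiv_apply]
  have h0 : ∀ x, (Fin.snoc w x : Fin (k+2) → Ω) 0 = w 0 := by
    intro x
    rw [← Fin.castSucc_zero, Fin.snoc_castSucc]
  simp only [h0, Fin.snoc_last, Fin.snoc_castSucc]
  rw [Finset.sum_eq_single (w 0)]
  · rw [Finset.sum_eq_single (w 0)]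
    · simp only [and_self, if_true]
      apply Finset.prod_congr rfl
      intro i _
      rw [snoc_succ_eq]
    · intro x _ hx
      rw [if_neg]
      rintro ⟨h1, -⟩
      exact hx h1.symm
    · simp
  · intro x _ hx
    apply Finset.sum_eq_zero
    intro y _
    rw [if_neg]
    rintro ⟨h1, h2⟩
    exact hx (h2.trans h1.symm)
  · simp

theorem trace_ineq {Ω : Type*} [Fintype Ω] [DecidableEq Ω] (U : Ω → Ω → ℝ)
    (hU : ∀ a b, U a b = U b a) (n : ℕ) [NeZero n] (hn : Even n)
    (g : Fin n → Ω → ℝ) (b : Fin n → ℝ) (hg : ∀ i ω, |g i ω| ≤ b i) :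
    |∑ w : Fin n → Ω, (∏ i, U (w i) (w (i + 1))) * ∏ i, g i (w i)| ≤
      (∏ i, b i) * ∑ w : Fin n → Ω, ∏ i, U (w i) (w (i + 1)) := by
  rcases isEmpty_or_nonempty Ω with hΩ | hΩ
  · have : IsEmpty (Fin n → Ω) := ⟨fun w => hΩ.elim (w 0)⟩
    simp
  obtain ⟨ω₀⟩ := hΩ
  have hb0 : ∀ i, 0 ≤ b i := fun i => le_trans (abs_nonneg _) (hg i ω₀)
  by_cases hz : ∃ i, b i = 0
  · obtain ⟨i, hi⟩ := hz
    have hgi : ∀ ω, g i ω = 0 := by
      intro ω
      have := hg i ω
      rw [hi] at this
      exact abs_eq_zero.mp (le_antisymm this (abs_nonneg _))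
    have h1 : ∏ i, b i = 0 := Finset.prod_eq_zero (Finset.mem_univ i) hi
    have h2 : ∀ w : Fin n → Ω, ∏ i, g i (w i) = 0 :=
      fun w => Finset.prod_eq_zero (Finset.mem_univ i) (hgi _)
    simp [h1, h2]
  push Not at hz
  have hbpos : ∀ i, 0 < b i := fun i => lt_of_le_of_ne (hb0 i) (hz i).symm
  have hB : 0 < ∏ i, b i := Finset.prod_pos (fun i _ => hbpos i)
  have key := trace_list_le (Matrix.of U) (by ext a c; simp [hU a c])
    (List.ofFn (fun i => fun ω => g i ω / b i)) (by simpa using hn) (by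
      intro f hf ω
      rw [List.mem_ofFn] at hf
      obtain ⟨i, rfl⟩ := hf
      simp only
      rw [abs_div, abs_of_pos (hbpos i), div_le_one (hbpos i)]
      exact hg i ω)
  rw [List.map_ofFn, trace_ofFn, List.length_ofFn] at key
  have hpow : (Matrix.of U) ^ n = (List.ofFn (fun _ : Fin n => Matrix.of U)).prod := by
    rw [List.ofFn_const, List.prod_replicate]
  rw [hpow, trace_ofFn] at key
  simp only [Function.comp, Matrix.diagonal_mul, Matrix.of_apply] at key
  have e1 : ∑ w : Fin n → Ω, ∏ i, g i (w i) / b i * U (w i) (w (i + 1)) =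
      (∑ w : Fin n → Ω, (∏ i, U (w i) (w (i + 1))) * ∏ i, g i (w i)) / ∏ i, b i := by
    rw [Finset.sum_div]
    apply Finset.sum_congr rfl
    intro w _
    rw [Finset.prod_mul_distrib, Finset.prod_div_distrib]
    ring
  rw [e1, abs_div, abs_of_pos hB, div_le_iff₀ hB] at key
  linarith

end Vale.Agent.P050
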