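import Vale.Agent.P050.Resample
import Vale.Agent.P050.TraceSum
import Vale.Agent.P050.CycEdges

/-!
# Domination of an edge set by a chordless even cycle inside it
-/

namespace Vale.Agent.P050

open Finset

variable {V Ω : Type*}

/-- A function of `w` which is a product of functions of the single coordinates, with a bound. -/
def RankOne (n : ℕ) (P : (Fin n → Ω) → ℝ) (B : ℝ) : Prop :=
  ∃ (g : Fin n → Ω → ℝ) (b : Fin n → ℝ), (∀ w, P w = ∏ i, g i (w i)) ∧
    (∀ i ω, |g i ω| ≤ b i) ∧ (∀ i, 0 ≤ b i) ∧ ∏ i, b i = B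

theorem rankOne_coord (n : ℕ) (i₀ : Fin n) (φ : Ω → ℝ) (B : ℝ) (hB : 0 ≤ B)
    (hφ : ∀ ω, |φ ω| ≤ B) : RankOne n (fun w => φ (w i₀)) B := by
  refine ⟨fun i => if i = i₀ then φ else fun _ => 1, fun i => if i = i₀ then B else 1, ?_, ?_, ?_, ?_⟩
  · intro w
    rw [prod_eq_single i₀]
    · simp
    · intro j _ hj
      simp [hj]
    · intro h
      exact absurd (mem_univ _) h
  · intro i ω
    by_cases hi : i = i₀
    · simp [hi, hφ]
    · simp [hi]
  · intro i
    by_cases hi : i = i₀
    · simp [hi, hB]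
    · simp [hi]
  · simp

theorem rankOne_const (n : ℕ) [NeZero n] (κ : ℝ) (B : ℝ) (hκ : |κ| ≤ B) :
    RankOne (Ω := Ω) n (fun _ => κ) B :=
  rankOne_coord n 0 (fun _ => κ) B ((abs_nonneg _).trans hκ) (fun _ => hκ)

theorem RankOne.mul {n : ℕ} {P Q : (Fin n → Ω) → ℝ} {B C : ℝ} (hP : RankOne n P B)
    (hQ : RankOne n Q C) : RankOne n (fun w => P w * Q w) (B * C) := by
  obtain ⟨g, b, h1, h2, h3, h4⟩ := hP
  obtain ⟨g', b', h1', h2', h3', h4'⟩ := hQ
  refine ⟨fun i ω => g i ω * g' i ω, fun i => b i * b' i, ?_, ?_, ?_, ?_⟩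
  · intro w
    show P w * Q w = ∏ i, g i (w i) * g' i (w i)
    rw [h1, h1', prod_mul_distrib]
  · intro i ω
    show |g i ω * g' i ω| ≤ b i * b' i
    rw [abs_mul]
    exact mul_le_mul (h2 i ω) (h2' i ω) (abs_nonneg _) (h3 i)
  · intro i
    exact mul_nonneg (h3 i) (h3' i)
  · rw [prod_mul_distrib, h4, h4']

theorem rankOne_prod {α : Type*} (n : ℕ) [NeZero n] (R : Finset α) (P : α → (Fin n → Ω) → ℝ)
    (ε : ℝ) (hP : ∀ e ∈ R, RankOne n (P e) ε) :
    RankOne n (fun w => ∏ e ∈ R, P e w) (ε ^ R.card) := by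
  classical
  induction R using Finset.induction_on with
  | empty =>
    simp only [prod_empty, card_empty, pow_zero]
    exact rankOne_const n 1 1 (by simp)
  | insert a s ha ih =>
    have h1 := hP a (mem_insert_self a s)
    have h2 := ih (fun e he => hP e (mem_insert_of_mem he))
    have h3 := h1.mul h2
    simp only [prod_insert ha, card_insert_of_notMem ha]
    rw [pow_succ, mul_comm (ε ^ s.card) ε]
    exact h3

variable [Fintype V] [DecidableEq V] [Fintype Ω] [DecidableEq Ω]

theorem cycle_bound [Nonempty Ω] (U : Ω → Ω → ℝ) (hU : ∀ a b, U a b = U b a) (ε : ℝ)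
    (hε : ∀ a b, |U a b| ≤ ε) (col : V → Bool) (F : Finset (V × V)) (hcol : Oriented col F)
    (n : ℕ) [NeZero n] (hn : Even n) (hn3 : 3 ≤ n) (c : Fin n → V) (hc : IsCyc F n c)
    (v : V) (h : Ω → ℝ) (β : ℝ) (hh : ∀ ω, |h ω| ≤ β) :
    |∑ x : V → Ω, h (x v) * wt U F x| ≤ β * ε ^ (F.card - n) * hs U (cycEdges F c) := by
  classical
  have hN : (0 : ℝ) < Fintype.card Ω := by exact_mod_cast Fintype.card_pos
  have hε0 : 0 ≤ ε := (abs_nonneg _).trans (hε (Classical.arbitrary Ω) (Classical.arbitrary Ω))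
  have hβ0 : 0 ≤ β := (abs_nonneg _).trans (hh (Classical.arbitrary Ω))
  set C := cycEdges F c with hC
  set R := F \ C with hR
  have hCF : C ⊆ F := cycEdges_subset F c
  have hcardR : R.card = F.card - n := by
    rw [hR, card_sdiff_of_subset hCF, hC, card_cycEdges col F hcol n hn3 c hc]
  have hsplit : ∀ y : V → Ω, wt U F y = wt U C y * wt U R y := by
    intro y
    unfold wt
    rw [hR, mul_comm, prod_sdiff hCF]
  have hwC : ∀ y : V → Ω, wt U C y = ∏ i, U (y (c i)) (y (c (i + 1))) := by
    intro y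
    exact prod_cycEdges col F hcol n hn3 c hc (fun a b => U (y a) (y b)) (fun a b => hU _ _)
  have hext : ∀ (x : V → Ω) (w : Fin n → Ω) (i : Fin n), Function.extend c w x (c i) = w i :=
    fun x w i => hc.inj.extend_apply w x i
  -- the remaining factors form a product of functions of single coordinates
  have hrank : ∀ x : V → Ω, RankOne n
      (fun w => h (Function.extend c w x v) * wt U R (Function.extend c w x)) (β * ε ^ R.card) := by
    intro x
    apply RankOne.mul
    · by_cases hv : ∃ i, c i = v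
      · obtain ⟨i, rfl⟩ := hv
        simp only [hext]
        exact rankOne_coord n i h β hβ0 hh
      · simp only [Function.extend_apply' _ _ _ hv]
        exact rankOne_const n _ β (hh _)
    · unfold wt
      apply rankOne_prod
      intro e he
      have heF : e ∈ F := (mem_sdiff.mp he).1
      have heC : ¬ (e.1 ∈ Set.range c ∧ e.2 ∈ Set.range c) := by
        intro hcon
        exact (mem_sdiff.mp he).2 ((mem_cycEdges F c e).mpr ⟨heF, hcon⟩)
      by_cases h1 : ∃ i, c i = e.1
      · have h2 : ¬ ∃ j, c j = e.2 := fun h2 => heC ⟨h1, h2⟩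
        obtain ⟨i, hi⟩ := h1
        simp only [← hi, hext, Function.extend_apply' _ _ _ h2]
        exact rankOne_coord n i (fun ω => U ω (x e.2)) ε hε0 (fun ω => hε _ _)
      · by_cases h2 : ∃ j, c j = e.2
        · obtain ⟨j, hj⟩ := h2
          simp only [← hj, hext, Function.extend_apply' _ _ _ h1]
          exact rankOne_coord n j (fun ω => U (x e.1) ω) ε hε0 (fun ω => hε _ _)
        · simp only [Function.extend_apply' _ _ _ h1, Function.extend_apply' _ _ _ h2]
          exact rankOne_const n _ ε (hε _ _)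
  have hinner : ∀ x : V → Ω,
      |∑ w : Fin n → Ω, h (Function.extend c w x v) * wt U F (Function.extend c w x)| ≤
        β * ε ^ R.card * ∑ w : Fin n → Ω, wt U C (Function.extend c w x) := by
    intro x
    obtain ⟨g, b, g1, g2, -, g4⟩ := hrank x
    have key := trace_ineq U hU n hn g b g2
    rw [g4] at key
    have e1 : ∀ w : Fin n → Ω, h (Function.extend c w x v) * wt U F (Function.extend c w x) =
        (∏ i, U (w i) (w (i + 1))) * ∏ i, g i (w i) := by
      intro w
      rw [← g1 w, hsplit, hwC]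
      simp only [hext]
      ring
    have e2 : ∀ w : Fin n → Ω, wt U C (Function.extend c w x) = ∏ i, U (w i) (w (i + 1)) := by
      intro w
      rw [hwC]
      simp only [hext]
    simp only [e1, e2]
    exact key
  have s1 := sum_extend c hc.inj (fun x : V → Ω => h (x v) * wt U F x)
  have s2 := sum_extend c hc.inj (fun x : V → Ω => wt U C x)
  have hNn : (0 : ℝ) < (Fintype.card Ω : ℝ) ^ Fintype.card (Fin n) := pow_pos hN _
  have main : (Fintype.card Ω : ℝ) ^ Fintype.card (Fin n) * |∑ x : V → Ω, h (x v) * wt U F x| ≤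
      (Fintype.card Ω : ℝ) ^ Fintype.card (Fin n) * (β * ε ^ R.card * hs U C) := by
    calc (Fintype.card Ω : ℝ) ^ Fintype.card (Fin n) * |∑ x : V → Ω, h (x v) * wt U F x|
        = |(Fintype.card Ω : ℝ) ^ Fintype.card (Fin n) * ∑ x : V → Ω, h (x v) * wt U F x| := by
          rw [abs_mul, abs_of_pos hNn]
      _ = |∑ x : V → Ω, ∑ w : Fin n → Ω,
            h (Function.extend c w x v) * wt U F (Function.extend c w x)| := by rw [← s1]
      _ ≤ ∑ x : V → Ω, |∑ w : Fin n → Ω,
            h (Function.extend c w x v) * wt U F (Function.extend c w x)| :=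
          abs_sum_le_sum_abs _ _
      _ ≤ ∑ x : V → Ω, β * ε ^ R.card * ∑ w : Fin n → Ω, wt U C (Function.extend c w x) :=
          sum_le_sum fun x _ => hinner x
      _ = β * ε ^ R.card * ((Fintype.card Ω : ℝ) ^ Fintype.card (Fin n) * hs U C) := by
          rw [← mul_sum, s2]
          rfl
      _ = (Fintype.card Ω : ℝ) ^ Fintype.card (Fin n) * (β * ε ^ R.card * hs U C) := by ring
  have := le_of_mul_le_mul_left main hNn
  rwa [hcardR] at this

end Vale.Agent.P050
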