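import Mathlib

/-!
# P050: basic definitions for the local Sidorenko inequality

Vertices of the pattern graph live in a finite type `V`, the pattern graph is given by a finite set
of oriented edges `F : Finset (V × V)`; the target is a finite set `Ω` with a symmetric real kernel
`U : Ω → Ω → ℝ`.
-/

namespace Vale.Agent.P050

open Finset

variable {V Ω : Type*}

/-- Product of the kernel over the edges of `F` for the assignment `x`. -/
def wt (U : Ω → Ω → ℝ) (F : Finset (V × V)) (x : V → Ω) : ℝ :=
  ∏ e ∈ F, U (x e.1) (x e.2)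

/-- Unnormalised homomorphism sum of the edge set `F` in the kernel `U`. -/
def hs [Fintype V] [DecidableEq V] [Fintype Ω] (U : Ω → Ω → ℝ) (F : Finset (V × V)) : ℝ :=
  ∑ x : V → Ω, wt U F x

/-- Number of edges of `F` at the vertex `v`. -/
def deg [DecidableEq V] (F : Finset (V × V)) (v : V) : ℕ :=
  (F.filter (fun e => e.1 = v ∨ e.2 = v)).card

/-- Two edges have a common endpoint. -/
def share (e e' : V × V) : Prop :=
  e.1 = e'.1 ∨ e.1 = e'.2 ∨ e.2 = e'.1 ∨ e.2 = e'.2

/-- Every edge of `F` meets `S` or has a common endpoint with another edge of `F`. -/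
def Valid (S : Finset V) (F : Finset (V × V)) : Prop :=
  ∀ e ∈ F, (e.1 ∈ S ∨ e.2 ∈ S) ∨ ∃ e' ∈ F, e' ≠ e ∧ share e e'

open Classical in
/-- Generating function of the valid subsets of `E`. -/
noncomputable def cnt (E : Finset (V × V)) (S : Finset V) (x : ℝ) : ℝ :=
  ∑ F ∈ E.powerset.filter (Valid S), x ^ F.card

/-- Adjacency in the underlying undirected graph. -/
def Nbr (F : Finset (V × V)) (u v : V) : Prop := (u, v) ∈ F ∨ (v, u) ∈ F

/-- `c` enumerates a cycle of `F` without chords. -/
structure IsCyc (F : Finset (V × V)) (n : ℕ) [NeZero n] (c : Fin n → V) : Prop where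
  inj : Function.Injective c
  adj : ∀ i, Nbr F (c i) (c (i + 1))
  chordless : ∀ i j, Nbr F (c i) (c j) → j = i + 1 ∨ i = j + 1

open Classical in
/-- The edges of `F` with both endpoints on the cycle `c`. -/
noncomputable def cycEdges (F : Finset (V × V)) {n : ℕ} (c : Fin n → V) : Finset (V × V) :=
  F.filter (fun e => e.1 ∈ Set.range c ∧ e.2 ∈ Set.range c)

theorem mem_cycEdges (F : Finset (V × V)) {n : ℕ} (c : Fin n → V) (e : V × V) :
    e ∈ cycEdges F c ↔ e ∈ F ∧ e.1 ∈ Set.range c ∧ e.2 ∈ Set.range c := by
  unfold cycEdges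
  simp only [Finset.mem_filter]

theorem cycEdges_subset (F : Finset (V × V)) {n : ℕ} (c : Fin n → V) : cycEdges F c ⊆ F := by
  intro e he
  exact ((mem_cycEdges F c e).mp he).1

/-- The edges are oriented from colour `false` to colour `true`. -/
def Oriented (col : V → Bool) (F : Finset (V × V)) : Prop :=
  ∀ e ∈ F, col e.1 = false ∧ col e.2 = true

end Vale.Agent.P050
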