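import Vale.Agent.P050.Bridge

/-!
# Reduction of the statement for weighted graphs to the oriented, centred form
-/

namespace Vale.Agent.P050

open Finset

theorem sidorenko_of_local {V Ω : Type*} [Fintype V] [DecidableEq V] [Fintype Ω] [Nonempty Ω]
    (H : SimpleGraph V) [DecidableRel H.Adj] (hH : H.Colorable 2)
    (W : Sym2 Ω → ℝ) (p ε : ℝ) (hp : 0 < p)
    (hmean : ∑ a, ∑ b, W s(a, b) = p * (Fintype.card Ω : ℝ) ^ 2)
    (hW : ∀ z, |W z - p| ≤ ε * p)
    (hloc : ∀ (col : V → Bool) (E : Finset (V × V)), Oriented col E →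
      E.card = H.edgeFinset.card → (∀ v, deg E v ≤ H.maxDegree) →
      ∀ U : Ω → Ω → ℝ, (∀ a b, U a b = U b a) → ∑ a, ∑ b, U a b = 0 → (∀ a b, |U a b| ≤ ε) →
        (Fintype.card Ω : ℝ) ^ Fintype.card V ≤ ∑ x : V → Ω, ∏ e ∈ E, (1 + U (x e.1) (x e.2))) :
    p ^ H.edgeFinset.card * (Fintype.card Ω : ℝ) ^ Fintype.card V ≤
      ∑ x : V → Ω, ∏ e ∈ H.edgeFinset, W (e.map x) := by
  obtain ⟨col, E, hE, hcard, hdeg, hprod⟩ := bridge H hH
  set U : Ω → Ω → ℝ := fun a b => W s(a, b) / p - 1 with hU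
  have hsymm : ∀ a b, U a b = U b a := by
    intro a b
    simp only [hU, Sym2.eq_swap]
  have hzero : ∑ a, ∑ b, U a b = 0 := by
    simp only [hU, sum_sub_distrib, ← sum_div, hmean]
    simp only [sum_const, card_univ, nsmul_eq_mul, mul_one]
    field_simp
    ring
  have hbound : ∀ a b, |U a b| ≤ ε := by
    intro a b
    have h1 : U a b = (W s(a, b) - p) / p := by
      simp only [hU]
      field_simp
    rw [h1, abs_div, abs_of_pos hp, div_le_iff₀ hp]
    exact hW _
  have key := hloc col E hE hcard hdeg U hsymm hzero hbound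
  have hx : ∀ x : V → Ω, ∏ e ∈ H.edgeFinset, W (e.map x) =
      p ^ H.edgeFinset.card * ∏ e ∈ E, (1 + U (x e.1) (x e.2)) := by
    intro x
    rw [hprod (fun e => W (e.map x)), ← hcard, ← prod_const, ← prod_mul_distrib]
    refine prod_congr rfl fun e _ => ?_
    simp only [hU, Sym2.map_mk]
    field_simp
    ring
  simp only [hx]
  rw [← mul_sum]
  exact mul_le_mul_of_nonneg_left key (pow_nonneg hp.le _)

end Vale.Agent.P050
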