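import Vale.Agent.P050.Defs

/-!
# A nonempty bipartite edge set with at most one leaf contains a chordless (even) cycle

Paths and cycles are handled as functions `ℕ → V` restricted to an initial segment.
(1) A longest path has an end of degree at least two; a second neighbour of this end lies on the
    path, which closes a cycle.
(2) A shortest cycle has no chords.
(3) The colour alternates along the cycle, so its length is even.
-/

namespace Vale.Agent.P050

variable {V : Type*} [Fintype V] [DecidableEq V]

theorem Nbr.symm' {F : Finset (V × V)} {u v : V} (h : Nbr F u v) : Nbr F v u := Or.symm h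

theorem Nbr.col_ne {col : V → Bool} {F : Finset (V × V)} (hcol : Oriented col F) {u v : V}
    (h : Nbr F u v) : col u ≠ col v := by
  rcases h with h | h
  · have := hcol _ h
    simp only at this
    rw [this.1, this.2]; simp
  · have := hcol _ h
    simp only at this
    rw [this.1, this.2]; simp

theorem Nbr.ne' {col : V → Bool} {F : Finset (V × V)} (hcol : Oriented col F) {u v : V}
    (h : Nbr F u v) : u ≠ v := fun e => h.col_ne hcol (by rw [e])

/-- `p` restricted to `{0, …, m-1}` is a path of `F`. -/
structure IsPathN (F : Finset (V × V)) (m : ℕ) (p : ℕ → V) : Prop where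
  inj : ∀ i j, i < m → j < m → p i = p j → i = j
  adj : ∀ i, i + 1 < m → Nbr F (p i) (p (i + 1))

/-- `p` restricted to `{0, …, n-1}` is a cycle of `F`. -/
structure IsCycN (F : Finset (V × V)) (n : ℕ) (p : ℕ → V) : Prop where
  path : IsPathN F n p
  three : 3 ≤ n
  close : Nbr F (p (n - 1)) (p 0)

theorem IsPathN.le_card {F : Finset (V × V)} {m : ℕ} {p : ℕ → V} (h : IsPathN F m p) :
    m ≤ Fintype.card V := by
  have hinj : Function.Injective (fun i : Fin m => p i.val) := by
    intro i j hij
    exact Fin.ext (h.inj _ _ i.2 j.2 hij)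
  simpa using Fintype.card_le_of_injective _ hinj

theorem IsPathN.reverse {F : Finset (V × V)} {m : ℕ} {p : ℕ → V} (h : IsPathN F m p) :
    IsPathN F m (fun i => p (m - 1 - i)) := by
  refine ⟨?_, ?_⟩
  · intro i j hi hj hij
    have := h.inj _ _ (by omega) (by omega) hij
    omega
  · intro i hi
    have := h.adj (m - 1 - (i + 1)) (by omega)
    have e : m - 1 - (i + 1) + 1 = m - 1 - i := by omega
    rw [e] at this
    exact this.symm'

theorem IsPathN.cons {F : Finset (V × V)} {m : ℕ} {p : ℕ → V} (h : IsPathN F m p) (hm : 1 ≤ m)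
    {u : V} (hu : Nbr F u (p 0)) (hnot : ∀ i, i < m → p i ≠ u) :
    IsPathN F (m + 1) (fun i => if i = 0 then u else p (i - 1)) := by
  refine ⟨?_, ?_⟩
  · intro i j hi hj hij
    by_cases hi0 : i = 0
    · by_cases hj0 : j = 0
      · omega
      · simp only [hi0, hj0, if_true, if_false] at hij
        exact absurd hij.symm (hnot _ (by omega))
    · by_cases hj0 : j = 0
      · simp only [hi0, hj0, if_true, if_false] at hij
        exact absurd hij (hnot _ (by omega))
      · simp only [hi0, hj0, if_false] at hij
        have := h.inj _ _ (by omega) (by omega) hij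
        omega
  · intro i hi
    by_cases hi0 : i = 0
    · subst hi0
      simpa using hu
    · have h1 : i + 1 ≠ 0 := by omega
      simp only [hi0, h1, if_false]
      have := h.adj (i - 1) (by omega)
      have e : i - 1 + 1 = i + 1 - 1 := by omega
      rw [e] at this
      exact this

theorem IsPathN.mono {F : Finset (V × V)} {m k : ℕ} {p : ℕ → V} (h : IsPathN F m p)
    (hk : k ≤ m) : IsPathN F k p :=
  ⟨fun i j hi hj => h.inj i j (by omega) (by omega), fun i hi => h.adj i (by omega)⟩

theorem IsPathN.shift {F : Finset (V × V)} {m k a : ℕ} {p : ℕ → V} (h : IsPathN F m p)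
    (hk : a + k ≤ m) : IsPathN F k (fun i => p (a + i)) := by
  refine ⟨?_, ?_⟩
  · intro i j hi hj hij
    have := h.inj _ _ (by omega) (by omega) hij
    omega
  · intro i hi
    exact h.adj (a + i) (by omega)

/-- A neighbour gives positive degree. -/
theorem deg_pos_of_nbr {F : Finset (V × V)} {u v : V} (h : Nbr F u v) : 1 ≤ deg F u := by
  unfold deg
  rw [Nat.succ_le_iff, Finset.card_pos]
  rcases h with h | h
  · exact ⟨(u, v), by simp [h]⟩
  · exact ⟨(v, u), by simp [h]⟩

/-- Degree at least two gives a neighbour different from a prescribed vertex. -/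
theorem exists_nbr_ne {col : V → Bool} {F : Finset (V × V)} (hcol : Oriented col F) {v : V}
    (h : 2 ≤ deg F v) (w : V) : ∃ u, Nbr F v u ∧ u ≠ w := by
  unfold deg at h
  have h' : 1 < (F.filter (fun e => e.1 = v ∨ e.2 = v)).card := by omega
  obtain ⟨e, he, e', he', hne⟩ := Finset.one_lt_card.mp h'
  simp only [Finset.mem_filter] at he he'
  obtain ⟨heF, hev⟩ := he
  obtain ⟨heF', hev'⟩ := he'
  have c1 := hcol _ heF
  have c2 := hcol _ heF'
  obtain ⟨a, b⟩ := e
  obtain ⟨a', b'⟩ := e'
  simp only at c1 c2 hev hev'
  rcases hev with rfl | rfl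
  · rcases hev' with rfl | rfl
    · have hb : b ≠ b' := fun hb => hne (by rw [hb])
      by_cases hbw : b = w
      · exact ⟨b', Or.inl heF', fun h' => hb (hbw.trans h'.symm)⟩
      · exact ⟨b, Or.inl heF, hbw⟩
    · rw [c1.1] at c2
      exact absurd c2.2 (by simp)
  · rcases hev' with rfl | rfl
    · rw [c1.2] at c2
      exact absurd c2.1 (by simp)
    · have hb : a ≠ a' := fun hb => hne (by rw [hb])
      by_cases hbw : a = w
      · exact ⟨a', Or.inr heF', fun h' => hb (hbw.trans h'.symm)⟩
      · exact ⟨a, Or.inr heF, hbw⟩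

/-- A longest path whose first vertex has degree at least two closes a cycle. -/
theorem cycle_of_longest {col : V → Bool} {F : Finset (V × V)} (hcol : Oriented col F)
    {m : ℕ} {p : ℕ → V} (h : IsPathN F m p) (hm : 2 ≤ m)
    (hmax : ∀ q, ¬ IsPathN F (m + 1) q) (hdeg : 2 ≤ deg F (p 0)) :
    ∃ n q, IsCycN F n q := by
  obtain ⟨u, hu, hu1⟩ := exists_nbr_ne hcol hdeg (p 1)
  by_cases hex : ∃ j, j < m ∧ p j = u
  · obtain ⟨j, hj, rfl⟩ := hex
    have hj0 : j ≠ 0 := by
      rintro rfl
      exact hu.ne' hcol rfl
    have hj1 : j ≠ 1 := by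
      rintro rfl
      exact hu1 rfl
    refine ⟨j + 1, p, h.mono (by omega), by omega, ?_⟩
    simpa using hu.symm'
  · exfalso
    have hex' : ∀ i, i < m → p i ≠ u := fun i hi hpi => hex ⟨i, hi, hpi⟩
    exact hmax _ (h.cons (by omega) hu.symm' hex')

theorem exists_cycN {col : V → Bool} {F : Finset (V × V)} (hcol : Oriented col F)
    (hne : F.Nonempty) (hleaf : ∀ v w, deg F v = 1 → deg F w = 1 → v = w) :
    ∃ n q, IsCycN F n q := by
  classical
  -- a path with two vertices
  obtain ⟨⟨a, b⟩, hab⟩ := hne
  have hnb : Nbr F a b := Or.inl hab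
  have h2 : ∃ p, IsPathN F 2 p := by
    refine ⟨fun i => if i = 0 then a else b, ?_, ?_⟩
    · intro i j hi hj hij
      have hab' := hnb.ne' hcol
      by_cases hi0 : i = 0
      · by_cases hj0 : j = 0
        · omega
        · simp only [hi0, hj0, if_true, if_false] at hij
          exact absurd hij hab'
      · by_cases hj0 : j = 0
        · simp only [hi0, hj0, if_true, if_false] at hij
          exact absurd hij.symm hab'
        · omega
    · intro i hi
      have : i = 0 := by omega
      subst this
      simpa using hnb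
  -- a longest path
  let P : ℕ → Prop := fun m => ∃ p, IsPathN F m p
  have hP2 : P 2 := h2
  have hbound : ∀ m, P m → m ≤ Fintype.card V := fun m ⟨p, hp⟩ => hp.le_card
  let m := Nat.findGreatest P (Fintype.card V)
  have hPm : P m := Nat.findGreatest_spec (hbound 2 hP2) hP2
  have hm2 : 2 ≤ m := Nat.le_findGreatest (hbound 2 hP2) hP2
  have hmax : ∀ q, ¬ IsPathN F (m + 1) q := by
    intro q hq
    have h1 : P (m + 1) := ⟨q, hq⟩
    have := Nat.le_findGreatest (hbound _ h1) h1
    omega
  obtain ⟨p, hp⟩ := hPm
  have hd0 : 1 ≤ deg F (p 0) := deg_pos_of_nbr (hp.adj 0 (by omega))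
  have hd1 : 1 ≤ deg F (p (m - 1)) := by
    have := hp.adj (m - 2) (by omega)
    have e : m - 2 + 1 = m - 1 := by omega
    rw [e] at this
    exact deg_pos_of_nbr this.symm'
  by_cases hdeg : 2 ≤ deg F (p 0)
  · exact cycle_of_longest hcol hp hm2 hmax hdeg
  · by_cases hdeg' : 2 ≤ deg F (p (m - 1))
    · refine cycle_of_longest hcol hp.reverse hm2 hmax ?_
      simpa using hdeg'
    · exfalso
      have := hleaf _ _ (by omega : deg F (p 0) = 1) (by omega : deg F (p (m - 1)) = 1)
      have := hp.inj _ _ (by omega) (by omega) this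
      omega

/-- A chord of a cycle gives a shorter cycle. -/
theorem IsCycN.shorter {F : Finset (V × V)}
    {n : ℕ} {p : ℕ → V} (h : IsCycN F n p) {i j : ℕ} (hij : i < j) (hj : j < n)
    (hnb : Nbr F (p i) (p j)) (h1 : j ≠ i + 1) (h2 : ¬ (i = 0 ∧ j = n - 1)) :
    ∃ k q, k < n ∧ IsCycN F k q := by
  refine ⟨j - i + 1, fun t => p (i + t), by omega, h.path.shift (by omega), by omega, ?_⟩
  have e : i + (j - i + 1 - 1) = j := by omega
  simp only [e, add_zero]
  exact hnb.symm'

theorem IsCycN.col_alt {col : V → Bool} {F : Finset (V × V)} (hcol : Oriented col F)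
    {n : ℕ} {p : ℕ → V} (h : IsPathN F n p) :
    ∀ i, i < n → col (p i) = xor (col (p 0)) (decide (i % 2 = 1)) := by
  intro i
  induction i with
  | zero => intro _; simp
  | succ i ih =>
    intro hi
    have h1 := ih (by omega)
    have h2 := (h.adj i hi).col_ne hcol
    rcases Nat.mod_two_eq_zero_or_one i with hi2 | hi2
    · have e : (i + 1) % 2 = 1 := by omega
      rw [hi2] at h1
      rw [e]
      revert h1 h2
      cases col (p i) <;> cases col (p (i + 1)) <;> cases col (p 0) <;> simp
    · have e : (i + 1) % 2 = 0 := by omega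
      rw [hi2] at h1
      rw [e]
      revert h1 h2
      cases col (p i) <;> cases col (p (i + 1)) <;> cases col (p 0) <;> simp

theorem IsCycN.even {col : V → Bool} {F : Finset (V × V)} (hcol : Oriented col F)
    {n : ℕ} {p : ℕ → V} (h : IsCycN F n p) : Even n := by
  have h3 := h.three
  have h1 := IsCycN.col_alt hcol h.path (n - 1) (by omega)
  have h2 := h.close.col_ne hcol
  rcases Nat.mod_two_eq_zero_or_one (n - 1) with hi2 | hi2
  · exfalso
    rw [hi2] at h1
    apply h2
    rw [h1]; simp
  · rw [Nat.even_iff]; omega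

theorem exists_cycle (col : V → Bool) (F : Finset (V × V)) (hcol : Oriented col F)
    (hne : F.Nonempty) (hleaf : ∀ v w, deg F v = 1 → deg F w = 1 → v = w) :
    ∃ (n : ℕ) (_ : NeZero n) (c : Fin n → V), Even n ∧ 4 ≤ n ∧ IsCyc F n c := by
  classical
  have hex : ∃ n, ∃ q, IsCycN F n q := exists_cycN hcol hne hleaf
  let n := Nat.find hex
  obtain ⟨p, hp⟩ : ∃ q, IsCycN F n q := Nat.find_spec hex
  have hmin : ∀ k q, k < n → ¬ IsCycN F k q := fun k q hk hq => Nat.find_min hex hk ⟨q, hq⟩
  have h3 := hp.three
  have hev := hp.even hcol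
  have hn0 : NeZero n := ⟨by omega⟩
  have hchord : ∀ i j, i < j → j < n → Nbr F (p i) (p j) → j = i + 1 ∨ (i = 0 ∧ j = n - 1) := by
    intro i j hij hj hnb
    by_contra hcon
    have hc1 : j ≠ i + 1 := fun h => hcon (Or.inl h)
    have hc2 : ¬ (i = 0 ∧ j = n - 1) := fun h => hcon (Or.inr h)
    obtain ⟨k, q, hk, hq⟩ := hp.shorter hij hj hnb hc1 hc2
    exact hmin k q hk hq
  have hval : ∀ i : Fin n, (i + 1).val = if i.val + 1 = n then 0 else i.val + 1 := by
    intro i
    have hi := i.2
    rw [Fin.val_add]
    have h1 : ((1 : Fin n)).val = 1 := by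
      rw [Fin.val_one']
      exact Nat.mod_eq_of_lt (by omega)
    rw [h1]
    split_ifs with h
    · rw [h]; simp
    · exact Nat.mod_eq_of_lt (by omega)
  refine ⟨n, hn0, fun i => p i.val, hev, ?_, ?_, ?_, ?_⟩
  · rcases hev with ⟨r, hr⟩
    omega
  · intro i j hij
    exact Fin.ext (hp.path.inj _ _ i.2 j.2 hij)
  · intro i
    have hi := i.2
    simp only [hval]
    split_ifs with h
    · have e : i.val = n - 1 := by omega
      rw [e]
      exact hp.close
    · exact hp.path.adj _ (by omega)
  · intro i j hnb
    have hi := i.2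
    have hj := j.2
    have hne' : i.val ≠ j.val := by
      intro e
      apply hnb.ne' hcol
      rw [e]
    rcases Nat.lt_or_gt_of_ne hne' with hlt | hlt
    · rcases hchord _ _ hlt hj hnb with h | ⟨h, h'⟩
      · left
        apply Fin.ext
        rw [hval]
        split_ifs with h''
        · omega
        · exact h
      · right
        apply Fin.ext
        rw [hval]
        split_ifs with h''
        · exact h
        · omega
    · rcases hchord _ _ hlt hi hnb.symm' with h | ⟨h, h'⟩
      · right
        apply Fin.ext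
        rw [hval]
        split_ifs with h''
        · omega
        · exact h
      · left
        apply Fin.ext
        rw [hval]
        split_ifs with h''
        · exact h
        · omega

end Vale.Agent.P050
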