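import Vale.Agent.P050.Resample

/-!
# Integrating out leaves
-/

namespace Vale.Agent.P050

open Finset

variable {V Ω : Type*} [Fintype V] [DecidableEq V] [Fintype Ω]

/-- Normalised degree function of the kernel. -/
noncomputable def dg (U : Ω → Ω → ℝ) (ω : Ω) : ℝ := (∑ η, U ω η) / Fintype.card Ω

/-- Second moment of the degree function, read at the vertex `v`. -/
noncomputable def dv (U : Ω → Ω → ℝ) (v : V) : ℝ := ∑ x : V → Ω, dg U (x v) ^ 2

theorem card_pos' [Nonempty Ω] : (0 : ℝ) < Fintype.card Ω := by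
  exact_mod_cast Fintype.card_pos

theorem leaf_integrate [Nonempty Ω] (U : Ω → Ω → ℝ) (hU : ∀ a b, U a b = U b a)
    (F : Finset (V × V)) (l v : V) (e₀ : V × V) (h₀ : e₀ ∈ F) (he₀ : e₀ = (l, v) ∨ e₀ = (v, l))
    (hv : v ≠ l) (hl : ∀ e ∈ F, (e.1 = l ∨ e.2 = l) → e = e₀) (h : (V → Ω) → ℝ)
    (hh : ∀ x ω, h (Function.update x l ω) = h x) :
    ∑ x, h x * wt U F x = ∑ x, h x * (dg U (x v) * wt U (F.erase e₀) x) := by
  have hN : (0 : ℝ) < Fintype.card Ω := card_pos'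
  have key : ∀ x : V → Ω, ∑ ω, h (Function.update x l ω) * wt U F (Function.update x l ω) =
      (Fintype.card Ω : ℝ) * (h x * (dg U (x v) * wt U (F.erase e₀) x)) := by
    intro x
    have h1 : ∀ ω, h (Function.update x l ω) * wt U F (Function.update x l ω) =
        h x * wt U (F.erase e₀) x * U (x v) ω := by
      intro ω
      have e1 : wt U F (Function.update x l ω) =
          U (Function.update x l ω e₀.1) (Function.update x l ω e₀.2) *
            wt U (F.erase e₀) (Function.update x l ω) := by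
        unfold wt
        rw [mul_prod_erase F (fun e => U (Function.update x l ω e.1) (Function.update x l ω e.2)) h₀]
      have e2 : wt U (F.erase e₀) (Function.update x l ω) = wt U (F.erase e₀) x := by
        apply wt_update
        intro e he
        have he' := mem_erase.mp he
        constructor
        · intro hc
          exact he'.1 (hl e he'.2 (Or.inl hc))
        · intro hc
          exact he'.1 (hl e he'.2 (Or.inr hc))
      have e3 : U (Function.update x l ω e₀.1) (Function.update x l ω e₀.2) = U (x v) ω := by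
        rcases he₀ with rfl | rfl
        · simp only [Function.update_self, Function.update_of_ne hv]
          exact hU _ _
        · simp only [Function.update_self, Function.update_of_ne hv]
      rw [e1, e2, e3, hh]
      ring
    simp only [h1]
    rw [← mul_sum]
    unfold dg
    field_simp
  have h2 := sum_update l (fun x => h x * wt U F x)
  simp only [key] at h2
  rw [← mul_sum] at h2
  exact (mul_left_cancel₀ hN.ne' h2).symm

theorem sum_dg [Nonempty Ω] (U : Ω → Ω → ℝ) (hmean : ∑ a, ∑ b, U a b = 0) : ∑ ω, dg U ω = 0 := by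
  unfold dg
  rw [← sum_div, hmean, zero_div]

/-- An edge set with an isolated edge has vanishing homomorphism sum. -/
theorem hs_eq_zero_of_isolated [Nonempty Ω] (U : Ω → Ω → ℝ) (hU : ∀ a b, U a b = U b a)
    (hmean : ∑ a, ∑ b, U a b = 0) (F : Finset (V × V)) (e₀ : V × V) (h₀ : e₀ ∈ F)
    (hne : e₀.1 ≠ e₀.2) (hiso : ∀ e ∈ F, e ≠ e₀ → ¬ share e₀ e) : hs U F = 0 := by
  have hN : (0 : ℝ) < Fintype.card Ω := card_pos'
  have h1 := leaf_integrate U hU F e₀.1 e₀.2 e₀ h₀ (Or.inl rfl) hne.symm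
    (fun e he ht => by
      by_contra hc
      apply hiso e he hc
      rcases ht with ht | ht
      · exact Or.inl ht.symm
      · exact Or.inr (Or.inl ht.symm)) (fun _ => 1) (fun _ _ => rfl)
  simp only [one_mul] at h1
  unfold hs
  rw [h1]
  have h2 := sum_update e₀.2 (fun x : V → Ω => dg U (x e₀.2) * wt U (F.erase e₀) x)
  have h3 : ∀ x : V → Ω, ∑ ω, dg U (Function.update x e₀.2 ω e₀.2) *
      wt U (F.erase e₀) (Function.update x e₀.2 ω) = 0 := by
    intro x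
    have h4 : ∀ ω, dg U (Function.update x e₀.2 ω e₀.2) *
        wt U (F.erase e₀) (Function.update x e₀.2 ω) = dg U ω * wt U (F.erase e₀) x := by
      intro ω
      rw [Function.update_self, wt_update]
      intro e he
      have he' := mem_erase.mp he
      constructor
      · intro hc
        exact hiso e he'.2 he'.1 (Or.inr (Or.inr (Or.inl hc.symm)))
      · intro hc
        exact hiso e he'.2 he'.1 (Or.inr (Or.inr (Or.inr hc.symm)))
    simp only [h4]
    rw [← sum_mul, sum_dg U hmean, zero_mul]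
  simp only [h3, sum_const_zero] at h2
  rcases mul_eq_zero.mp h2.symm with h5 | h5
  · exact absurd h5 hN.ne'
  · exact h5

/-- Integrating out two leaves. -/
theorem hs_two_leaves [Nonempty Ω] (U : Ω → Ω → ℝ) (hU : ∀ a b, U a b = U b a)
    (F : Finset (V × V)) (l₁ v₁ l₂ v₂ : V) (e₁ e₂ : V × V) (h₁ : e₁ ∈ F) (h₂ : e₂ ∈ F)
    (hne : e₁ ≠ e₂) (he₁ : e₁ = (l₁, v₁) ∨ e₁ = (v₁, l₁)) (he₂ : e₂ = (l₂, v₂) ∨ e₂ = (v₂, l₂))
    (hv₁ : v₁ ≠ l₁) (hv₂ : v₂ ≠ l₂)
    (hl₁ : ∀ e ∈ F, (e.1 = l₁ ∨ e.2 = l₁) → e = e₁)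
    (hl₂ : ∀ e ∈ F, (e.1 = l₂ ∨ e.2 = l₂) → e = e₂) :
    hs U F = ∑ x : V → Ω, dg U (x v₁) * dg U (x v₂) * wt U ((F.erase e₁).erase e₂) x := by
  have a1 := leaf_integrate U hU F l₁ v₁ e₁ h₁ he₁ hv₁ hl₁ (fun _ => 1) (fun _ _ => rfl)
  simp only [one_mul] at a1
  have hv12 : v₁ ≠ l₂ := by
    intro hc
    apply hne
    apply hl₂ e₁ h₁
    rcases he₁ with rfl | rfl
    · exact Or.inr hc
    · exact Or.inl hc
  have a2 := leaf_integrate U hU (F.erase e₁) l₂ v₂ e₂ (mem_erase.mpr ⟨hne.symm, h₂⟩) he₂ hv₂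
    (fun e he ht => hl₂ e (mem_erase.mp he).2 ht) (fun x => dg U (x v₁))
    (fun x ω => by rw [Function.update_of_ne hv12])
  unfold hs
  rw [a1, a2]
  refine sum_congr rfl fun x _ => ?_
  ring

theorem abs_hs_two_leaves [Nonempty Ω] (U : Ω → Ω → ℝ) (hU : ∀ a b, U a b = U b a)
    (ε : ℝ) (hε : ∀ a b, |U a b| ≤ ε)
    (F : Finset (V × V)) (l₁ v₁ l₂ v₂ : V) (e₁ e₂ : V × V) (h₁ : e₁ ∈ F) (h₂ : e₂ ∈ F)
    (hne : e₁ ≠ e₂) (he₁ : e₁ = (l₁, v₁) ∨ e₁ = (v₁, l₁)) (he₂ : e₂ = (l₂, v₂) ∨ e₂ = (v₂, l₂))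
    (hv₁ : v₁ ≠ l₁) (hv₂ : v₂ ≠ l₂)
    (hl₁ : ∀ e ∈ F, (e.1 = l₁ ∨ e.2 = l₁) → e = e₁)
    (hl₂ : ∀ e ∈ F, (e.1 = l₂ ∨ e.2 = l₂) → e = e₂) :
    |hs U F| ≤ ε ^ (F.card - 2) * ((dv U v₁ + dv U v₂) / 2) := by
  rw [hs_two_leaves U hU F l₁ v₁ l₂ v₂ e₁ e₂ h₁ h₂ hne he₁ he₂ hv₁ hv₂ hl₁ hl₂]
  have hcard : ((F.erase e₁).erase e₂).card = F.card - 2 := by
    rw [card_erase_of_mem (mem_erase.mpr ⟨hne.symm, h₂⟩), card_erase_of_mem h₁]
    omega
  have hε0 : 0 ≤ ε := (abs_nonneg _).trans (hε (Classical.arbitrary Ω) (Classical.arbitrary Ω))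
  calc |∑ x : V → Ω, dg U (x v₁) * dg U (x v₂) * wt U ((F.erase e₁).erase e₂) x|
      ≤ ∑ x : V → Ω, |dg U (x v₁) * dg U (x v₂) * wt U ((F.erase e₁).erase e₂) x| :=
        abs_sum_le_sum_abs _ _
    _ ≤ ∑ x : V → Ω, ε ^ (F.card - 2) * ((dg U (x v₁) ^ 2 + dg U (x v₂) ^ 2) / 2) := by
        refine sum_le_sum fun x _ => ?_
        rw [abs_mul, mul_comm]
        have b1 := abs_wt_le U ε hε ((F.erase e₁).erase e₂) x
        rw [hcard] at b1
        have b2 : |dg U (x v₁) * dg U (x v₂)| ≤ (dg U (x v₁) ^ 2 + dg U (x v₂) ^ 2) / 2 := by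
          rw [abs_le]
          constructor <;> nlinarith [sq_nonneg (dg U (x v₁) - dg U (x v₂)),
            sq_nonneg (dg U (x v₁) + dg U (x v₂))]
        exact mul_le_mul b1 b2 (abs_nonneg _) (pow_nonneg hε0 _)
    _ = ε ^ (F.card - 2) * ((dv U v₁ + dv U v₂) / 2) := by
        rw [← mul_sum, ← sum_div, sum_add_distrib]
        rfl

end Vale.Agent.P050
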