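import Mathlib

/-!
# Numerical inequalities for the radius `1 / (12 sqrt (m Δ))`

Throughout `q = m Δ ε² ≤ 1/144`, `Δ ≤ m`, hence `(Δ ε)² ≤ q`, `Δ ε ≤ 1/12`.
Useful: `(1 + t) ^ k ≤ exp (t k)` (Real.add_one_le_exp, Real.exp_nat_mul or exp_mul / pow_le_pow_left₀);
`exp (1/3) ≤ 2`, `exp (1/2) ≤ 1.65` (from `Real.exp_one_lt_d9 : exp 1 < 2.7182818286` and
`exp (1/2) ^ 2 = exp 1`, `1.65 ^ 2 = 2.7225`);
`P = (1 + a) ^ m ≤ 18/17` for `a m ≤ 1/18`: `exp (1/18) ^ 18 = exp 1 < 2.72 < (18/17)^18 = 2.797...`, or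
Bernoulli: `(1+a)^m (1 - a m) ≤ (1+a)^m (1-a)^m = (1-a²)^m ≤ 1` (one_add_mul_le_pow), which also gives
`P - 1 ≤ a m P ≤ (18/17) a m`.
-/

namespace Vale.Agent.P050

/-- `(1 + t) ^ k ≤ exp (k t)` for `t ≥ 0`. -/
private theorem one_add_pow_le_exp (t : ℝ) (ht : 0 ≤ t) (k : ℕ) :
    (1 + t) ^ k ≤ Real.exp (k * t) := by
  rw [Real.exp_nat_mul]
  apply pow_le_pow_left₀ (by linarith)
  have := Real.add_one_le_exp t
  linarith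

private theorem exp_third_le : Real.exp (1 / 3) ≤ 2 := by
  by_contra hc
  rw [not_le] at hc
  have h1 : (2 : ℝ) ^ 3 < Real.exp (1 / 3) ^ 3 := pow_lt_pow_left₀ hc (by norm_num) (by norm_num)
  have h2 : Real.exp (1 / 3) ^ 3 = Real.exp 1 := by
    rw [← Real.exp_nat_mul]; norm_num
  have h3 := Real.exp_one_lt_d9
  rw [h2] at h1
  norm_num at h1
  linarith

private theorem exp_half_le : Real.exp (1 / 2) ≤ 1.65 := by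
  by_contra hc
  rw [not_le] at hc
  have h1 : (1.65 : ℝ) ^ 2 < Real.exp (1 / 2) ^ 2 :=
    pow_lt_pow_left₀ hc (by norm_num) (by norm_num)
  have h2 : Real.exp (1 / 2) ^ 2 = Real.exp 1 := by
    rw [← Real.exp_nat_mul]; norm_num
  have h3 := Real.exp_one_lt_d9
  rw [h2] at h1
  norm_num at h1
  linarith

theorem num_delta_eps (m Δ : ℕ) (ε : ℝ) (hε : 0 ≤ ε) (hΔm : Δ ≤ m)
    (h : 144 * (m : ℝ) * Δ * ε ^ 2 ≤ 1) : (Δ : ℝ) * ε ≤ 1 / 12 := by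
  have hΔm' : (Δ : ℝ) ≤ m := by exact_mod_cast hΔm
  have hΔ0 : (0 : ℝ) ≤ Δ := Nat.cast_nonneg _
  have h1 : ((Δ : ℝ) * ε) ^ 2 ≤ (m : ℝ) * Δ * ε ^ 2 := by
    have : (Δ : ℝ) * (Δ * ε ^ 2) ≤ m * (Δ * ε ^ 2) :=
      mul_le_mul_of_nonneg_right hΔm' (by positivity)
    nlinarith
  have h0 : 0 ≤ (Δ : ℝ) * ε := by positivity
  by_contra hc
  rw [not_le] at hc
  nlinarith

theorem num_two (m Δ : ℕ) (ε : ℝ) (hε : 0 ≤ ε) (hΔm : Δ ≤ m)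
    (h : 144 * (m : ℝ) * Δ * ε ^ 2 ≤ 1) : (1 + 2 * ε) ^ (2 * Δ) ≤ 2 := by
  have hd := num_delta_eps m Δ ε hε hΔm h
  calc (1 + 2 * ε) ^ (2 * Δ) ≤ Real.exp (((2 * Δ : ℕ) : ℝ) * (2 * ε)) :=
        one_add_pow_le_exp _ (by positivity) _
    _ ≤ Real.exp (1 / 3) := by
        apply Real.exp_le_exp.mpr
        push_cast
        linarith
    _ ≤ 2 := exp_third_le

theorem num_P (m Δ : ℕ) (ε : ℝ) (hε : 0 ≤ ε)
    (h : 144 * (m : ℝ) * Δ * ε ^ 2 ≤ 1) :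
    (1 + 8 * Δ * ε ^ 2) ^ m ≤ 18 / 17 ∧
      (1 + 8 * Δ * ε ^ 2) ^ m - 1 ≤ 18 / 17 * (8 * m * Δ * ε ^ 2) := by
  set P := (1 + 8 * (Δ : ℝ) * ε ^ 2) ^ m with hP
  set x := 8 * (m : ℝ) * Δ * ε ^ 2 with hx
  have hx0 : 0 ≤ x := by positivity
  have hx1 : x ≤ 1 / 18 := by rw [hx]; linarith
  have hP0 : 0 ≤ P := by positivity
  have h1 : P ≤ Real.exp x := by
    have := one_add_pow_le_exp (8 * (Δ : ℝ) * ε ^ 2) (by positivity) m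
    have e : (m : ℝ) * (8 * (Δ : ℝ) * ε ^ 2) = x := by rw [hx]; ring
    rw [e] at this
    exact this
  have h2 : Real.exp x * (1 - x) ≤ 1 := by
    have h3 : -x + 1 ≤ Real.exp (-x) := Real.add_one_le_exp (-x)
    have h4 : Real.exp x * Real.exp (-x) = 1 := by rw [← Real.exp_add]; simp
    have h5 := Real.exp_pos x
    nlinarith
  have h6 : P * (1 - x) ≤ 1 := by
    have : P * (1 - x) ≤ Real.exp x * (1 - x) :=
      mul_le_mul_of_nonneg_right h1 (by linarith)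
    linarith
  have h7 : P ≤ 18 / 17 := by nlinarith
  refine ⟨h7, ?_⟩
  nlinarith

/-- Total charge received by a cherry. -/
theorem num_cherry (m Δ : ℕ) (ε : ℝ) (hε : 0 ≤ ε) (hΔm : Δ ≤ m)
    (h : 144 * (m : ℝ) * Δ * ε ^ 2 ≤ 1) :
    ((1 + 8 * Δ * ε ^ 2) ^ m * (1 + 2 * ε) ^ (3 * Δ) - 1) +
      (m * ε) * (24 * (Δ : ℝ) ^ 2 * ε ^ 2 * (1 + 8 * Δ * ε ^ 2) ^ m) / 2 ≤ 1 := by
  have hd := num_delta_eps m Δ ε hε hΔm h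
  obtain ⟨hP, -⟩ := num_P m Δ ε hε h
  set P := (1 + 8 * (Δ : ℝ) * ε ^ 2) ^ m with hPdef
  have hP0 : 0 ≤ P := by positivity
  have hT : (1 + 2 * ε) ^ (3 * Δ) ≤ 1.65 := by
    calc (1 + 2 * ε) ^ (3 * Δ) ≤ Real.exp (((3 * Δ : ℕ) : ℝ) * (2 * ε)) :=
          one_add_pow_le_exp _ (by positivity) _
      _ ≤ Real.exp (1 / 2) := by
          apply Real.exp_le_exp.mpr
          push_cast
          linarith
      _ ≤ 1.65 := exp_half_le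
  have hT0 : 0 ≤ (1 + 2 * ε) ^ (3 * Δ) := by positivity
  have h1 : P * (1 + 2 * ε) ^ (3 * Δ) ≤ 18 / 17 * 1.65 := mul_le_mul hP hT hT0 (by norm_num)
  have hq0 : 0 ≤ (m : ℝ) * Δ * ε ^ 2 := by positivity
  have hq : (m : ℝ) * Δ * ε ^ 2 ≤ 1 / 144 := by linarith
  have hd0 : 0 ≤ (Δ : ℝ) * ε := by positivity
  have h2 : ((m : ℝ) * Δ * ε ^ 2) * ((Δ : ℝ) * ε) ≤ 1 / 144 * (1 / 12) :=
    mul_le_mul hq hd hd0 (by norm_num)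
  have h20 : 0 ≤ ((m : ℝ) * Δ * ε ^ 2) * ((Δ : ℝ) * ε) := by positivity
  have h3 : (((m : ℝ) * Δ * ε ^ 2) * ((Δ : ℝ) * ε)) * P ≤ 1 / 144 * (1 / 12) * (18 / 17) :=
    mul_le_mul h2 hP hP0 (by norm_num)
  have e : (m * ε) * (24 * (Δ : ℝ) ^ 2 * ε ^ 2 * P) / 2
      = 12 * ((((m : ℝ) * Δ * ε ^ 2) * ((Δ : ℝ) * ε)) * P) := by ring
  rw [e]
  norm_num at h1 h3 ⊢
  linarith

/-- Total charge received by a cycle. -/
theorem num_cycle (m Δ : ℕ) (ε : ℝ) (hε : 0 < ε) (hm : 0 < m) (hΔm : Δ ≤ m)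
    (h : 144 * (m : ℝ) * Δ * ε ^ 2 ≤ 1) :
    ((1 + 8 * Δ * ε ^ 2) ^ m - 1) +
      (m * ε)⁻¹ * (((1 + 8 * Δ * ε ^ 2) ^ m - 1) + m * ε * (1 + 8 * Δ * ε ^ 2) ^ m) / 2 ≤ 1 := by
  have hd := num_delta_eps m Δ ε hε.le hΔm h
  obtain ⟨hP, hP1⟩ := num_P m Δ ε hε.le h
  set P := (1 + 8 * (Δ : ℝ) * ε ^ 2) ^ m with hPdef
  have hm' : (0 : ℝ) < m := by exact_mod_cast hm
  have hme : 0 < (m : ℝ) * ε := by positivity
  have h1 : (m * ε)⁻¹ * (P - 1) ≤ 18 / 17 * (8 * ((Δ : ℝ) * ε)) := by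
    have : (m * ε)⁻¹ * (P - 1) ≤ (m * ε)⁻¹ * (18 / 17 * (8 * m * Δ * ε ^ 2)) :=
      mul_le_mul_of_nonneg_left hP1 (by positivity)
    have e : ((m : ℝ) * ε)⁻¹ * (18 / 17 * (8 * m * Δ * ε ^ 2)) = 18 / 17 * (8 * ((Δ : ℝ) * ε)) := by
      field_simp
    linarith
  have e2 : ((m : ℝ) * ε)⁻¹ * ((P - 1) + m * ε * P) / 2
      = ((m * ε)⁻¹ * (P - 1)) / 2 + P / 2 := by
    field_simp
  rw [e2]
  linarith

end Vale.Agent.P050
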