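import Vale.Agent.P050.Structure

/-!
# Edge sets with exactly one leaf: the Cauchy-Schwarz bound
-/

namespace Vale.Agent.P050

open Finset

variable {V Ω : Type*} [Fintype V] [DecidableEq V] [Fintype Ω]

theorem sum_vertex_mul (v : V) (b : Ω → ℝ) (P : (V → Ω) → ℝ) :
    (Fintype.card Ω : ℝ) * ∑ x : V → Ω, b (x v) * P x =
      ∑ ω, b ω * ∑ y : V → Ω, P (Function.update y v ω) := by
  rw [← sum_update v (fun x => b (x v) * P x), sum_comm]
  refine sum_congr rfl fun ω _ => ?_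
  rw [mul_sum]
  refine sum_congr rfl fun y _ => ?_
  rw [Function.update_self]

theorem sum_vertex (v : V) (b : Ω → ℝ) :
    (Fintype.card Ω : ℝ) * ∑ x : V → Ω, b (x v) =
      (Fintype.card Ω : ℝ) ^ Fintype.card V * ∑ ω, b ω := by
  rw [← sum_update v (fun x => b (x v))]
  simp only [Function.update_self, sum_const, card_univ, nsmul_eq_mul, Fintype.card_fun,
    Nat.cast_pow]

theorem cs_vertex [Nonempty Ω] (v : V) (a : Ω → ℝ) (P : (V → Ω) → ℝ) :
    (∑ x : V → Ω, a (x v) * P x) ^ 2 * (Fintype.card Ω : ℝ) ^ Fintype.card V ≤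
      (∑ x : V → Ω, a (x v) ^ 2) *
        ∑ x : V → Ω, (∑ y : V → Ω, P (Function.update y v (x v))) * P x := by
  have hN : (0 : ℝ) < Fintype.card Ω := card_pos'
  set Ψ : Ω → ℝ := fun ω => ∑ y : V → Ω, P (Function.update y v ω) with hΨ
  have h1 := sum_vertex_mul v a P
  have h2 := sum_vertex_mul v Ψ P
  have h3 := sum_vertex (V := V) v (fun ω => a ω ^ 2)
  have hcs : (∑ ω, a ω * Ψ ω) ^ 2 ≤ (∑ ω, a ω ^ 2) * ∑ ω, Ψ ω ^ 2 :=
    sum_mul_sq_le_sq_mul_sq _ _ _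
  have h2' : (Fintype.card Ω : ℝ) * ∑ x : V → Ω, Ψ (x v) * P x = ∑ ω, Ψ ω ^ 2 := by
    rw [h2]
    refine sum_congr rfl fun ω _ => ?_
    rw [sq]
  have hNV : (0 : ℝ) ≤ (Fintype.card Ω : ℝ) ^ Fintype.card V := pow_nonneg hN.le _
  have hmain : (Fintype.card Ω : ℝ) ^ 2 *
      ((∑ x : V → Ω, a (x v) * P x) ^ 2 * (Fintype.card Ω : ℝ) ^ Fintype.card V) ≤
      (Fintype.card Ω : ℝ) ^ 2 * ((∑ x : V → Ω, a (x v) ^ 2) * ∑ x : V → Ω, Ψ (x v) * P x) := by
    calc (Fintype.card Ω : ℝ) ^ 2 *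
        ((∑ x : V → Ω, a (x v) * P x) ^ 2 * (Fintype.card Ω : ℝ) ^ Fintype.card V)
        = ((Fintype.card Ω : ℝ) * ∑ x : V → Ω, a (x v) * P x) ^ 2 *
            (Fintype.card Ω : ℝ) ^ Fintype.card V := by ring
      _ = (∑ ω, a ω * Ψ ω) ^ 2 * (Fintype.card Ω : ℝ) ^ Fintype.card V := by rw [h1]
      _ ≤ ((∑ ω, a ω ^ 2) * ∑ ω, Ψ ω ^ 2) * (Fintype.card Ω : ℝ) ^ Fintype.card V :=
          mul_le_mul_of_nonneg_right hcs hNV
      _ = ((Fintype.card Ω : ℝ) ^ Fintype.card V * ∑ ω, a ω ^ 2) * ∑ ω, Ψ ω ^ 2 := by ring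
      _ = ((Fintype.card Ω : ℝ) * ∑ x : V → Ω, a (x v) ^ 2) *
            ((Fintype.card Ω : ℝ) * ∑ x : V → Ω, Ψ (x v) * P x) := by rw [← h3, h2']
      _ = (Fintype.card Ω : ℝ) ^ 2 *
            ((∑ x : V → Ω, a (x v) ^ 2) * ∑ x : V → Ω, Ψ (x v) * P x) := by ring
  exact le_of_mul_le_mul_left hmain (by positivity)

variable [DecidableEq Ω]

theorem one_leaf_sq [Nonempty Ω] (U : Ω → Ω → ℝ) (hU : ∀ a b, U a b = U b a) (ε : ℝ)
    (hε : ∀ a b, |U a b| ≤ ε) {col : V → Bool} {F : Finset (V × V)} (hF : Oriented col F)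
    {l v : V} {e₀ : V × V} (h₀ : e₀ ∈ F) (he₀ : e₀ = (l, v) ∨ e₀ = (v, l)) (hv : v ≠ l)
    (hl : ∀ e ∈ F, (e.1 = l ∨ e.2 = l) → e = e₀)
    {n : ℕ} [NeZero n] (hn : Even n) (hn4 : 4 ≤ n) {c : Fin n → V}
    (hc : IsCyc (F.erase e₀) n c) :
    hs U F ^ 2 ≤ (ε ^ (F.card - 2) * dv U v) *
      (ε ^ (F.card - (cycEdges (F.erase e₀) c).card) * hs U (cycEdges (F.erase e₀) c)) := by
  have hN : (0 : ℝ) < Fintype.card Ω := card_pos'
  have hε0 : 0 ≤ ε := (abs_nonneg _).trans (hε (Classical.arbitrary Ω) (Classical.arbitrary Ω))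
  have hF₁ : Oriented col (F.erase e₀) := hF.mono (erase_subset _ _)
  have hcardC := card_cycEdges col (F.erase e₀) hF₁ n (by omega) c hc
  have hcard₁ : (F.erase e₀).card = F.card - 1 := card_erase_of_mem h₀
  have hle : n ≤ F.card - 1 := by
    rw [← hcardC, ← hcard₁]
    exact card_le_card (cycEdges_subset _ _)
  have e1 := leaf_integrate U hU F l v e₀ h₀ he₀ hv hl (fun _ => 1) (fun _ _ => rfl)
  simp only [one_mul] at e1
  have e2 : hs U F = ∑ x : V → Ω, dg U (x v) * wt U (F.erase e₀) x := e1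
  have hcs := cs_vertex v (dg U) (wt U (F.erase e₀))
  rw [← e2] at hcs
  set Ψ : Ω → ℝ := fun ω => ∑ y : V → Ω, wt U (F.erase e₀) (Function.update y v ω) with hΨ
  have hΨb : ∀ ω, |Ψ ω| ≤ (Fintype.card Ω : ℝ) ^ Fintype.card V * ε ^ (F.card - 1) := by
    intro ω
    calc |Ψ ω| ≤ ∑ y : V → Ω, |wt U (F.erase e₀) (Function.update y v ω)| :=
          abs_sum_le_sum_abs _ _
      _ ≤ ∑ _y : V → Ω, ε ^ (F.card - 1) := by
          refine sum_le_sum fun y _ => ?_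
          rw [← hcard₁]
          exact abs_wt_le U ε hε _ _
      _ = (Fintype.card Ω : ℝ) ^ Fintype.card V * ε ^ (F.card - 1) := by
          simp only [sum_const, card_univ, nsmul_eq_mul, Fintype.card_fun, Nat.cast_pow]
  have hcb := cycle_bound U hU ε hε col (F.erase e₀) hF₁ n hn (by omega) c hc v Ψ _ hΨb
  have hcb' := (le_abs_self _).trans hcb
  have hdv : 0 ≤ dv U v := dv_nonneg U v
  have hNV : (0 : ℝ) < (Fintype.card Ω : ℝ) ^ Fintype.card V := pow_pos hN _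
  have hmain : hs U F ^ 2 * (Fintype.card Ω : ℝ) ^ Fintype.card V ≤
      ((ε ^ (F.card - 2) * dv U v) *
      (ε ^ (F.card - (cycEdges (F.erase e₀) c).card) * hs U (cycEdges (F.erase e₀) c))) *
        (Fintype.card Ω : ℝ) ^ Fintype.card V := by
    calc hs U F ^ 2 * (Fintype.card Ω : ℝ) ^ Fintype.card V
        ≤ dv U v * ∑ x : V → Ω, Ψ (x v) * wt U (F.erase e₀) x := hcs
      _ ≤ dv U v * ((Fintype.card Ω : ℝ) ^ Fintype.card V * ε ^ (F.card - 1) *
            ε ^ ((F.erase e₀).card - n) * hs U (cycEdges (F.erase e₀) c)) :=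
          mul_le_mul_of_nonneg_left hcb' hdv
      _ = ((ε ^ (F.card - 2) * dv U v) *
          (ε ^ (F.card - (cycEdges (F.erase e₀) c).card) * hs U (cycEdges (F.erase e₀) c))) *
            (Fintype.card Ω : ℝ) ^ Fintype.card V := by
          have hexp : ε ^ (F.card - 1) * ε ^ ((F.erase e₀).card - n) =
              ε ^ (F.card - 2) * ε ^ (F.card - (cycEdges (F.erase e₀) c).card) := by
            rw [hcardC, hcard₁, ← pow_add, ← pow_add]
            congr 1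
            omega
          calc dv U v * ((Fintype.card Ω : ℝ) ^ Fintype.card V * ε ^ (F.card - 1) *
              ε ^ ((F.erase e₀).card - n) * hs U (cycEdges (F.erase e₀) c))
              = dv U v * (Fintype.card Ω : ℝ) ^ Fintype.card V *
                (ε ^ (F.card - 1) * ε ^ ((F.erase e₀).card - n)) *
                  hs U (cycEdges (F.erase e₀) c) := by ring
            _ = _ := by rw [hexp]; ring
  exact le_of_mul_le_mul_right hmain hNV

/-- Weighted arithmetic-geometric mean inequality. -/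
theorem abs_le_of_sq_le_mul {s A B θ : ℝ} (hA : 0 ≤ A) (hB : 0 ≤ B) (hθ : 0 < θ)
    (h : s ^ 2 ≤ A * B) : |s| ≤ (θ * A + θ⁻¹ * B) / 2 := by
  have h1 : 0 ≤ (θ * A + θ⁻¹ * B) / 2 := by positivity
  apply abs_le_of_sq_le_sq _ h1
  have h2 : θ * θ⁻¹ = 1 := mul_inv_cancel₀ hθ.ne'
  have h3 : ((θ * A + θ⁻¹ * B) / 2) ^ 2 = A * B * (θ * θ⁻¹) + ((θ * A - θ⁻¹ * B) / 2) ^ 2 := by ring
  rw [h3, h2]
  nlinarith [sq_nonneg ((θ * A - θ⁻¹ * B) / 2)]

end Vale.Agent.P050
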