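import Vale.Agent.P050.Defs

/-!
# Resampling of coordinates in sums over assignments
-/

namespace Vale.Agent.P050

open Finset

variable {V Ω : Type*} [Fintype V] [DecidableEq V] [Fintype Ω]

/-- Exchange of the value at `v` with a fresh value. -/
def swapEquiv (v : V) : (V → Ω) × Ω ≃ (V → Ω) × Ω where
  toFun p := (Function.update p.1 v p.2, p.1 v)
  invFun p := (Function.update p.1 v p.2, p.1 v)
  left_inv p := by simp
  right_inv p := by simp

theorem sum_update (v : V) (f : (V → Ω) → ℝ) :
    ∑ x : V → Ω, ∑ ω : Ω, f (Function.update x v ω) = (Fintype.card Ω : ℝ) * ∑ x : V → Ω, f x := by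
  rw [← Fintype.sum_prod_type' (f := fun x ω => f (Function.update x v ω))]
  have h := Equiv.sum_comp (swapEquiv v) (fun p : (V → Ω) × Ω => f p.1)
  have h2 : ∑ p : (V → Ω) × Ω, f (Function.update p.1 v p.2) = ∑ p : (V → Ω) × Ω, f p.1 := h
  rw [h2, Fintype.sum_prod_type]
  simp only [sum_const, card_univ, nsmul_eq_mul]
  rw [mul_sum]

/-- Exchange of the values on the range of `c` with fresh values. -/
noncomputable def swapEquiv' {ι : Type*} (c : ι → V) (hc : Function.Injective c) :
    (V → Ω) × (ι → Ω) ≃ (V → Ω) × (ι → Ω) where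
  toFun p := (Function.extend c p.2 p.1, p.1 ∘ c)
  invFun p := (Function.extend c p.2 p.1, p.1 ∘ c)
  left_inv p := by
    ext1
    · funext b
      by_cases hb : ∃ a, c a = b
      · obtain ⟨a, rfl⟩ := hb
        simp [hc.extend_apply]
      · simp [Function.extend_apply' _ _ _ hb]
    · funext a
      simp [hc.extend_apply]
  right_inv p := by
    ext1
    · funext b
      by_cases hb : ∃ a, c a = b
      · obtain ⟨a, rfl⟩ := hb
        simp [hc.extend_apply]
      · simp [Function.extend_apply' _ _ _ hb]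
    · funext a
      simp [hc.extend_apply]

theorem sum_extend {ι : Type*} [Fintype ι] [DecidableEq ι] (c : ι → V) (hc : Function.Injective c)
    (f : (V → Ω) → ℝ) :
    ∑ x : V → Ω, ∑ w : ι → Ω, f (Function.extend c w x) =
      (Fintype.card Ω : ℝ) ^ Fintype.card ι * ∑ x : V → Ω, f x := by
  rw [← Fintype.sum_prod_type' (f := fun x w => f (Function.extend c w x))]
  have h := Equiv.sum_comp (swapEquiv' c hc) (fun p : (V → Ω) × (ι → Ω) => f p.1)
  have h2 : ∑ p : (V → Ω) × (ι → Ω), f (Function.extend c p.2 p.1) =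
      ∑ p : (V → Ω) × (ι → Ω), f p.1 := h
  rw [h2, Fintype.sum_prod_type]
  simp only [sum_const, card_univ, nsmul_eq_mul, Fintype.card_fun, Nat.cast_pow]
  rw [mul_sum]

omit [Fintype V] [Fintype Ω] in
/-- The weight does not depend on the value at a vertex which is not an endpoint. -/
theorem wt_update (U : Ω → Ω → ℝ) (F : Finset (V × V)) (v : V)
    (hv : ∀ e ∈ F, e.1 ≠ v ∧ e.2 ≠ v) (x : V → Ω) (ω : Ω) :
    wt U F (Function.update x v ω) = wt U F x := by
  unfold wt
  refine prod_congr rfl fun e he => ?_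
  rw [Function.update_of_ne (hv e he).1, Function.update_of_ne (hv e he).2]

omit [Fintype V] [DecidableEq V] [Fintype Ω] in
theorem abs_wt_le (U : Ω → Ω → ℝ) (ε : ℝ) (hU : ∀ a b, |U a b| ≤ ε) (F : Finset (V × V))
    (x : V → Ω) : |wt U F x| ≤ ε ^ F.card := by
  unfold wt
  rw [abs_prod, ← prod_const]
  exact prod_le_prod (fun _ _ => abs_nonneg _) (fun e _ => hU _ _)

end Vale.Agent.P050
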