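import Vale.Agent.P050.Structure
import Vale.Agent.P050.Charge

/-!
# The local inequality with radius of order `1 / m`
-/

namespace Vale.Agent.P050

open Finset

variable {V Ω : Type*} [Fintype V] [DecidableEq V] [Fintype Ω] [DecidableEq Ω]

omit [DecidableEq Ω] in
theorem expand (U : Ω → Ω → ℝ) (E : Finset (V × V)) :
    ∑ x : V → Ω, ∏ e ∈ E, (1 + U (x e.1) (x e.2)) = ∑ F ∈ E.powerset, hs U F := by
  unfold hs wt
  rw [sum_comm]
  refine sum_congr rfl fun x _ => ?_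
  rw [prod_one_add]

omit [DecidableEq Ω] in
theorem hs_empty (U : Ω → Ω → ℝ) :
    hs U (∅ : Finset (V × V)) = (Fintype.card Ω : ℝ) ^ Fintype.card V := by
  unfold hs wt
  simp

/-- The good edge sets: cherries and chordless even cycles. -/
def IsGood (F : Finset (V × V)) : Prop := (F.card = 2 ∧ Valid ∅ F) ∨ IsCycleSet F

omit [Fintype V] [DecidableEq V] in
theorem not_isCycleSet_empty : ¬ IsCycleSet (∅ : Finset (V × V)) := by
  rintro ⟨n, hn0, c, -, -, hc, -⟩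
  rcases hc.adj 0 with h | h <;> simp at h

omit [Fintype V] [DecidableEq V] in
theorem not_isGood_empty : ¬ IsGood (∅ : Finset (V × V)) := by
  rintro (h | h)
  · simp at h
  · exact not_isCycleSet_empty h

theorem good_nonneg [Nonempty Ω] (U : Ω → Ω → ℝ) (hU : ∀ a b, U a b = U b a) (ε : ℝ)
    (hε : ∀ a b, |U a b| ≤ ε) {col : V → Bool} {F : Finset (V × V)} (hF : Oriented col F)
    (hg : IsGood F) : 0 ≤ hs U F := by
  rcases hg with h | h
  · exact cherry_nonneg U hU hF h.1 h.2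
  · exact cycleSet_nonneg U hU ε hε hF h

omit [DecidableEq Ω] in
theorem hs_eq_zero_of_not_valid [Nonempty Ω] (U : Ω → Ω → ℝ) (hU : ∀ a b, U a b = U b a)
    (hmean : ∑ a, ∑ b, U a b = 0) {col : V → Bool} {F : Finset (V × V)} (hF : Oriented col F)
    (hv : ¬ Valid ∅ F) : hs U F = 0 := by
  unfold Valid at hv
  push Not at hv
  obtain ⟨e, he, -, h2⟩ := hv
  exact hs_eq_zero_of_isolated U hU hmean F e he (hF.ne he) (fun e' he' hne => h2 e' he' hne)

/-- Splitting of the expansion into the empty set, the good sets, and the bad valid sets. -/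
theorem split_sum [Nonempty Ω] (U : Ω → Ω → ℝ) (hU : ∀ a b, U a b = U b a)
    (hmean : ∑ a, ∑ b, U a b = 0) {col : V → Bool} (E : Finset (V × V)) (hE : Oriented col E)
    [DecidablePred (IsGood (V := V))] [DecidablePred (Valid (∅ : Finset V))] :
    ∑ F ∈ E.powerset, hs U F = hs U (∅ : Finset (V × V)) + ∑ F ∈ E.powerset.filter IsGood, hs U F +
      ∑ F ∈ (((E.powerset.filter (fun F => ¬ IsGood F)).filter (Valid ∅)).erase ∅), hs U F := by
  rw [← sum_filter_add_sum_filter_not E.powerset IsGood,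
    ← sum_filter_add_sum_filter_not (E.powerset.filter (fun F => ¬ IsGood F)) (Valid ∅)]
  have hz : ∑ F ∈ (E.powerset.filter (fun F => ¬ IsGood F)).filter (fun F => ¬ Valid ∅ F), hs U F = 0 := by
    apply sum_eq_zero
    intro F hF
    obtain ⟨h1, h2⟩ := mem_filter.mp hF
    have h3 := mem_powerset.mp (mem_filter.mp h1).1
    exact hs_eq_zero_of_not_valid U hU hmean (hE.mono h3) h2
  have hmem : (∅ : Finset (V × V)) ∈ (E.powerset.filter (fun F => ¬ IsGood F)).filter (Valid ∅) := by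
    rw [mem_filter, mem_filter]
    refine ⟨⟨empty_mem_powerset E, not_isGood_empty⟩, ?_⟩
    intro e he
    simp at he
  rw [hz, ← add_sum_erase _ _ hmem]
  ring

theorem local_simple [Nonempty Ω] (U : Ω → Ω → ℝ) (hU : ∀ a b, U a b = U b a)
    (hmean : ∑ a, ∑ b, U a b = 0) (ε : ℝ) (hε : ∀ a b, |U a b| ≤ ε) (col : V → Bool)
    (E : Finset (V × V)) (hE : Oriented col E) (hsmall : (1 + ε) ^ E.card ≤ 2) :
    (Fintype.card Ω : ℝ) ^ Fintype.card V ≤ ∑ x : V → Ω, ∏ e ∈ E, (1 + U (x e.1) (x e.2)) := by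
  classical
  have hε0 : 0 ≤ ε := (abs_nonneg _).trans (hε (Classical.arbitrary Ω) (Classical.arbitrary Ω))
  rw [expand, split_sum U hU hmean E hE, hs_empty]
  set G := E.powerset.filter IsGood with hG
  set B := ((E.powerset.filter (fun F => ¬ IsGood F)).filter (Valid ∅)).erase ∅ with hB
  have hGnn : ∀ g ∈ G, 0 ≤ hs U g := by
    intro g hg
    obtain ⟨h1, h2⟩ := mem_filter.mp hg
    exact good_nonneg U hU ε hε (hE.mono (mem_powerset.mp h1)) h2
  have hbad : ∀ F, F ∈ B → ∃ g₁ g₂ : Finset (V × V), g₁ ∈ G ∧ g₂ ∈ G ∧ g₁ ⊆ F ∧ g₂ ⊆ F ∧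
      g₁ ≠ F ∧ g₂ ≠ F ∧ |hs U F| ≤ (ε ^ (F.card - g₁.card) * hs U g₁ +
        ε ^ (F.card - g₂.card) * hs U g₂) / 2 := by
    intro F hF
    obtain ⟨hne, hF2⟩ := mem_erase.mp hF
    obtain ⟨hF3, hval⟩ := mem_filter.mp hF2
    obtain ⟨hF4, hng⟩ := mem_filter.mp hF3
    have hFE := mem_powerset.mp hF4
    have hFo := hE.mono hFE
    by_cases hleaf : ∀ v w, deg F v = 1 → deg F w = 1 → v = w
    · obtain ⟨C, hC1, hC2, hC3⟩ := classC U hU ε hε hFo (nonempty_iff_ne_empty.mpr hne) hleaf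
      have hCG : C ∈ G := mem_filter.mpr ⟨mem_powerset.mpr (hC1.trans hFE), Or.inr hC2⟩
      have hCne : C ≠ F := by
        rintro rfl
        exact hng (Or.inr hC2)
      refine ⟨C, C, hCG, hCG, hC1, hC1, hCne, hCne, ?_⟩
      linarith
    · push Not at hleaf
      obtain ⟨l₁, l₂, h1, h2, h12⟩ := hleaf
      obtain ⟨g₁, g₂, a1, a2, a3, a4, a5, a6, a7⟩ := classA U hU ε hε hFo hval h12 h1 h2
      refine ⟨g₁, g₂, mem_filter.mpr ⟨mem_powerset.mpr (a1.trans hFE), Or.inl ⟨a3, a5⟩⟩,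
        mem_filter.mpr ⟨mem_powerset.mpr (a2.trans hFE), Or.inl ⟨a4, a6⟩⟩, a1, a2, ?_, ?_, ?_⟩
      · rintro rfl
        exact hng (Or.inl ⟨a3, a5⟩)
      · rintro rfl
        exact hng (Or.inl ⟨a4, a6⟩)
      · rw [a3, a4]
        linarith
  choose! γ₁ γ₂ c1 c2 c3 c4 c5 c6 c7 using hbad
  have hBE : ∀ F ∈ B, F ⊆ E := by
    intro F hF
    exact mem_powerset.mp (mem_filter.mp (mem_filter.mp (mem_erase.mp hF).2).1).1
  have hK1 : ∑ F ∈ B, ε ^ (F.card - (γ₁ F).card) * hs U (γ₁ F) ≤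
      ((1 + ε) ^ E.card - 1) * ∑ g ∈ G, hs U g := by
    apply charge_sum B G γ₁ c1 (fun F => ε ^ (F.card - (γ₁ F).card)) (hs U) hGnn
    intro g _
    have e1 : ∑ F ∈ B.filter (fun F => γ₁ F = g), ε ^ (F.card - (γ₁ F).card) =
        ∑ F ∈ B.filter (fun F => γ₁ F = g), ε ^ (F.card - g.card) := by
      refine sum_congr rfl fun F hF => ?_
      rw [(mem_filter.mp hF).2]
    rw [e1]
    apply sum_supersets_le E g ε hε0
    intro F hF
    obtain ⟨h1, h2⟩ := mem_filter.mp hF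
    refine ⟨hBE F h1, ?_, ?_⟩
    · rw [← h2]; exact c3 F h1
    · rw [← h2]; exact (c5 F h1).symm
  have hK2 : ∑ F ∈ B, ε ^ (F.card - (γ₂ F).card) * hs U (γ₂ F) ≤
      ((1 + ε) ^ E.card - 1) * ∑ g ∈ G, hs U g := by
    apply charge_sum B G γ₂ c2 (fun F => ε ^ (F.card - (γ₂ F).card)) (hs U) hGnn
    intro g _
    have e1 : ∑ F ∈ B.filter (fun F => γ₂ F = g), ε ^ (F.card - (γ₂ F).card) =
        ∑ F ∈ B.filter (fun F => γ₂ F = g), ε ^ (F.card - g.card) := by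
      refine sum_congr rfl fun F hF => ?_
      rw [(mem_filter.mp hF).2]
    rw [e1]
    apply sum_supersets_le E g ε hε0
    intro F hF
    obtain ⟨h1, h2⟩ := mem_filter.mp hF
    refine ⟨hBE F h1, ?_, ?_⟩
    · rw [← h2]; exact c4 F h1
    · rw [← h2]; exact (c6 F h1).symm
  have hBsum : -(∑ F ∈ B, hs U F) ≤ ((1 + ε) ^ E.card - 1) * ∑ g ∈ G, hs U g := by
    calc -(∑ F ∈ B, hs U F) ≤ |∑ F ∈ B, hs U F| := neg_le_abs _
      _ ≤ ∑ F ∈ B, |hs U F| := abs_sum_le_sum_abs _ _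
      _ ≤ ∑ F ∈ B, (ε ^ (F.card - (γ₁ F).card) * hs U (γ₁ F) +
            ε ^ (F.card - (γ₂ F).card) * hs U (γ₂ F)) / 2 := sum_le_sum fun F hF => c7 F hF
      _ = (∑ F ∈ B, ε ^ (F.card - (γ₁ F).card) * hs U (γ₁ F) +
            ∑ F ∈ B, ε ^ (F.card - (γ₂ F).card) * hs U (γ₂ F)) / 2 := by
          rw [← sum_div, sum_add_distrib]
      _ ≤ ((1 + ε) ^ E.card - 1) * ∑ g ∈ G, hs U g := by linarith
  have hGsum : 0 ≤ ∑ g ∈ G, hs U g := sum_nonneg hGnn
  have hfin : ((1 + ε) ^ E.card - 1) * ∑ g ∈ G, hs U g ≤ ∑ g ∈ G, hs U g := by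
    have : (1 + ε) ^ E.card - 1 ≤ 1 := by linarith
    calc ((1 + ε) ^ E.card - 1) * ∑ g ∈ G, hs U g ≤ 1 * ∑ g ∈ G, hs U g :=
          mul_le_mul_of_nonneg_right this hGsum
      _ = ∑ g ∈ G, hs U g := one_mul _
  linarith

end Vale.Agent.P050
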