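import Vale.Agent.P050.Simple
import Vale.Agent.P050.ClassB
import Vale.Agent.P050.CountApps2
import Vale.Agent.P050.Numeric

/-!
# The local inequality with radius `1 / (12 sqrt (m Δ))`
-/

namespace Vale.Agent.P050

open Finset

variable {V Ω : Type*} [Fintype V] [DecidableEq V] [Fintype Ω] [DecidableEq Ω]

omit [Fintype V] in
theorem charge_pow (B G : Finset (Finset (V × V))) (γ : Finset (V × V) → Finset (V × V))
    (hγ : ∀ F ∈ B, γ F ∈ G) (s : Finset (V × V) → ℝ) (hs : ∀ g ∈ G, 0 ≤ s g) (ε K : ℝ)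
    (hK : ∀ g ∈ G, ∑ F ∈ B.filter (fun F => γ F = g), ε ^ (F.card - g.card) ≤ K) :
    ∑ F ∈ B, ε ^ (F.card - (γ F).card) * s (γ F) ≤ K * ∑ g ∈ G, s g := by
  apply charge_sum B G γ hγ (fun F => ε ^ (F.card - (γ F).card)) s hs
  intro g hg
  have e1 : ∑ F ∈ B.filter (fun F => γ F = g), ε ^ (F.card - (γ F).card) =
      ∑ F ∈ B.filter (fun F => γ F = g), ε ^ (F.card - g.card) := by
    refine sum_congr rfl fun F hF => ?_
    rw [(mem_filter.mp hF).2]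
  rw [e1]
  exact hK g hg

omit [Fintype V] in
theorem cnt_empty_le (Δ : ℕ) (x : ℝ) (hx : 0 ≤ x) (hΔ : (1 + 2 * x) ^ (2 * Δ) ≤ 2)
    (E : Finset (V × V)) (hdeg : ∀ v, deg E v ≤ Δ) :
    cnt E ∅ x ≤ (1 + 8 * Δ * x ^ 2) ^ E.card := by
  have h := cnt_le Δ x hx hΔ E hdeg ∅
  have h0 : (E.filter (fun e => e.1 ∈ (∅ : Finset V) ∨ e.2 ∈ (∅ : Finset V))).card = 0 := by
    rw [card_eq_zero, filter_eq_empty_iff]
    intro e _
    simp
  rw [h0, pow_zero, mul_one] at h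
  exact h

omit [Fintype V] in
theorem cnt_cherry_le (Δ : ℕ) (x : ℝ) (hx : 0 ≤ x) (hΔ : (1 + 2 * x) ^ (2 * Δ) ≤ 2)
    (E : Finset (V × V)) (hdeg : ∀ v, deg E v ≤ Δ) (g : Finset (V × V)) (hg : (verts g).card ≤ 3) :
    cnt E (verts g) x ≤ (1 + 8 * Δ * x ^ 2) ^ E.card * (1 + 2 * x) ^ (3 * Δ) := by
  have h := cnt_le Δ x hx hΔ E hdeg (verts g)
  have h1 := card_touch_le Δ E hdeg (verts g)
  have h2 : (E.filter (fun e => e.1 ∈ verts g ∨ e.2 ∈ verts g)).card ≤ 3 * Δ :=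
    h1.trans (Nat.mul_le_mul_right Δ hg)
  refine h.trans (mul_le_mul_of_nonneg_left ?_ (by positivity))
  exact pow_le_pow_right₀ (by linarith) h2

theorem local_sqrt [Nonempty Ω] (U : Ω → Ω → ℝ) (hU : ∀ a b, U a b = U b a)
    (hmean : ∑ a, ∑ b, U a b = 0) (ε : ℝ) (hε : ∀ a b, |U a b| ≤ ε) (col : V → Bool)
    (E : Finset (V × V)) (hE : Oriented col E) (Δ : ℕ) (hdeg : ∀ v, deg E v ≤ Δ)
    (hΔm : Δ ≤ E.card) (hsmall : 144 * (E.card : ℝ) * Δ * ε ^ 2 ≤ 1) :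
    (Fintype.card Ω : ℝ) ^ Fintype.card V ≤ ∑ x : V → Ω, ∏ e ∈ E, (1 + U (x e.1) (x e.2)) := by
  classical
  have hε0 : 0 ≤ ε := (abs_nonneg _).trans (hε (Classical.arbitrary Ω) (Classical.arbitrary Ω))
  by_cases hpos : 0 < ε ∧ 0 < E.card
  swap
  · apply local_simple U hU hmean ε hε col E hE
    rw [not_and_or] at hpos
    rcases hpos with h | h
    · have : ε = 0 := le_antisymm (not_lt.mp h) hε0
      rw [this]
      simp
    · have : E.card = 0 := by omega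
      rw [this]
      simp
  obtain ⟨hεpos, hmpos⟩ := hpos
  set m := E.card with hm
  set P : ℝ := (1 + 8 * Δ * ε ^ 2) ^ m with hP
  set θ : ℝ := m * ε with hθ
  have hθpos : 0 < θ := by
    have : (0 : ℝ) < m := by exact_mod_cast hmpos
    positivity
  have hΔ2 := num_two m Δ ε hε0 hΔm hsmall
  rw [expand, split_sum U hU hmean E hE, hs_empty]
  set G := E.powerset.filter IsGood with hG
  set G₂ := E.powerset.filter (fun F : Finset (V × V) => F.card = 2 ∧ Valid ∅ F) with hG₂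
  set Gc := E.powerset.filter (fun F : Finset (V × V) => IsCycleSet F) with hGc
  set B := ((E.powerset.filter (fun F => ¬ IsGood F)).filter (Valid ∅)).erase ∅ with hB
  have hGnn : ∀ g ∈ G, 0 ≤ hs U g := by
    intro g hg
    obtain ⟨h1, h2⟩ := mem_filter.mp hg
    exact good_nonneg U hU ε hε (hE.mono (mem_powerset.mp h1)) h2
  have hG₂nn : ∀ g ∈ G₂, 0 ≤ hs U g := by
    intro g hg
    obtain ⟨h1, h2⟩ := mem_filter.mp hg
    exact hGnn g (mem_filter.mpr ⟨h1, Or.inl h2⟩)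
  have hGcnn : ∀ g ∈ Gc, 0 ≤ hs U g := by
    intro g hg
    obtain ⟨h1, h2⟩ := mem_filter.mp hg
    exact hGnn g (mem_filter.mpr ⟨h1, Or.inr h2⟩)
  have hGsplit : ∑ g ∈ G, hs U g = ∑ g ∈ G₂, hs U g + ∑ g ∈ Gc, hs U g := by
    have hdisj : Disjoint G₂ Gc := by
      rw [disjoint_left]
      intro F h1 h2
      obtain ⟨a1, a2, -⟩ := mem_filter.mp h1
      obtain ⟨-, n, hn0, c, -, hn4, hc, hcc⟩ := mem_filter.mp h2
      have := card_cycEdges col F (hE.mono (mem_powerset.mp a1)) n (by omega) c hc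
      rw [hcc] at this
      omega
    rw [← sum_union hdisj]
    congr 1
    ext F
    simp only [hG, hG₂, hGc, mem_union, mem_filter, IsGood]
    tauto
  -- basic facts on bad sets
  have hBmem : ∀ F ∈ B, F ≠ ∅ ∧ F ⊆ E ∧ ¬ IsGood F ∧ Valid ∅ F := by
    intro F hF
    obtain ⟨hne, hF2⟩ := mem_erase.mp hF
    obtain ⟨hF3, hval⟩ := mem_filter.mp hF2
    obtain ⟨hF4, hng⟩ := mem_filter.mp hF3
    exact ⟨hne, mem_powerset.mp hF4, hng, hval⟩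
  set pA : Finset (V × V) → Prop := fun F => ∃ l₁ l₂, l₁ ≠ l₂ ∧ deg F l₁ = 1 ∧ deg F l₂ = 1 with hpA
  set pB : Finset (V × V) → Prop := fun F => ∃ l, deg F l = 1 with hpB
  set BA := B.filter pA with hBA
  set BB := (B.filter (fun F => ¬ pA F)).filter pB with hBB
  set BC := (B.filter (fun F => ¬ pA F)).filter (fun F => ¬ pB F) with hBC
  have hBsplit : ∑ F ∈ B, |hs U F| = ∑ F ∈ BA, |hs U F| + (∑ F ∈ BB, |hs U F| + ∑ F ∈ BC, |hs U F|) := by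
    rw [← sum_filter_add_sum_filter_not B pA,
      ← sum_filter_add_sum_filter_not (B.filter (fun F => ¬ pA F)) pB]
  -- class A
  have hA : ∀ F, F ∈ BA → ∃ g₁ g₂ : Finset (V × V), g₁ ∈ G₂ ∧ g₂ ∈ G₂ ∧ g₁ ⊆ F ∧ g₂ ⊆ F ∧
      g₁ ≠ F ∧ g₂ ≠ F ∧ |hs U F| ≤ (ε ^ (F.card - g₁.card) * hs U g₁ +
        ε ^ (F.card - g₂.card) * hs U g₂) / 2 := by
    intro F hF
    obtain ⟨hFB, l₁, l₂, h12, h1, h2⟩ := mem_filter.mp hF
    obtain ⟨-, hFE, hng, hval⟩ := hBmem F hFB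
    obtain ⟨g₁, g₂, a1, a2, a3, a4, a5, a6, a7⟩ := classA U hU ε hε (hE.mono hFE) hval h12 h1 h2
    refine ⟨g₁, g₂, mem_filter.mpr ⟨mem_powerset.mpr (a1.trans hFE), a3, a5⟩,
      mem_filter.mpr ⟨mem_powerset.mpr (a2.trans hFE), a4, a6⟩, a1, a2, ?_, ?_, ?_⟩
    · rintro rfl
      exact hng (Or.inl ⟨a3, a5⟩)
    · rintro rfl
      exact hng (Or.inl ⟨a4, a6⟩)
    · rw [a3, a4]
      linarith
  choose! γ₁ γ₂ c1 c2 c3 c4 c5 c6 c7 using hA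
  set KA : ℝ := P * (1 + 2 * ε) ^ (3 * Δ) - 1 with hKA
  have hKAbound : ∀ (γ : Finset (V × V) → Finset (V × V)), (∀ F ∈ BA, γ F ⊆ F) →
      (∀ F ∈ BA, γ F ≠ F) → ∀ g ∈ G₂,
      ∑ F ∈ BA.filter (fun F => γ F = g), ε ^ (F.card - g.card) ≤ KA := by
    intro γ h1 h2 g hg
    obtain ⟨-, g1, g2⟩ := mem_filter.mp hg
    have h3 := sum_valid_supersets E g ε hε0 (BA.filter (fun F => γ F = g)) (by
      intro F hF
      obtain ⟨a1, a2⟩ := mem_filter.mp hF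
      obtain ⟨-, hFE, -, hval⟩ := hBmem F (mem_filter.mp a1).1
      refine ⟨hFE, ?_, ?_, hval⟩
      · rw [← a2]; exact h1 F a1
      · rw [← a2]; exact (h2 F a1).symm)
    have h4 := cnt_cherry_le Δ ε hε0 hΔ2 E hdeg g (card_verts_cherry g1 g2)
    linarith
  have hAsum : ∑ F ∈ BA, |hs U F| ≤ KA * ∑ g ∈ G₂, hs U g := by
    have k1 := charge_pow BA G₂ γ₁ c1 (hs U) hG₂nn ε KA (hKAbound γ₁ c3 c5)
    have k2 := charge_pow BA G₂ γ₂ c2 (hs U) hG₂nn ε KA (hKAbound γ₂ c4 c6)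
    calc ∑ F ∈ BA, |hs U F| ≤ ∑ F ∈ BA, (ε ^ (F.card - (γ₁ F).card) * hs U (γ₁ F) +
            ε ^ (F.card - (γ₂ F).card) * hs U (γ₂ F)) / 2 := sum_le_sum fun F hF => c7 F hF
      _ = (∑ F ∈ BA, ε ^ (F.card - (γ₁ F).card) * hs U (γ₁ F) +
            ∑ F ∈ BA, ε ^ (F.card - (γ₂ F).card) * hs U (γ₂ F)) / 2 := by
          rw [← sum_div, sum_add_distrib]
      _ ≤ KA * ∑ g ∈ G₂, hs U g := by linarith
  -- class B
  have hBcl : ∀ F, F ∈ BB → ∃ g C : Finset (V × V), g ∈ G₂ ∧ C ∈ Gc ∧ g ⊆ F ∧ C ⊆ F ∧ C ≠ F ∧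
      |hs U F| ≤ (θ * (ε ^ (F.card - g.card) * hs U g) +
        θ⁻¹ * (ε ^ (F.card - C.card) * hs U C)) / 2 ∧
      Valid ∅ (F \ g) ∧ (∃ f ∈ F \ g, f.1 ∈ verts g ∨ f.2 ∈ verts g) ∧
      (Valid ∅ (F \ C) ∨ ∃ e₀ ∈ F \ C, Valid ∅ ((F \ C).erase e₀)) := by
    intro F hF
    obtain ⟨hF1, l, hl⟩ := mem_filter.mp hF
    obtain ⟨hFB, hnA⟩ := mem_filter.mp hF1
    obtain ⟨-, hFE, hng, hval⟩ := hBmem F hFB
    have huniq : ∀ w, deg F w = 1 → w = l := by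
      intro w hw
      by_contra hwl
      exact hnA ⟨w, l, hwl, hw, hl⟩
    obtain ⟨g, C, b1, b2, b3, b4, b5, b6, b7, b8, b9, b10⟩ :=
      classB U hU ε hε (hE.mono hFE) hval hl huniq
    have hgG : g ∈ G₂ := mem_filter.mpr ⟨mem_powerset.mpr (b1.trans hFE), b2, b3⟩
    have hCG : C ∈ Gc := mem_filter.mpr ⟨mem_powerset.mpr (b4.trans hFE), b5⟩
    refine ⟨g, C, hgG, hCG, b1, b4, b6, ?_, b8, b9, b10⟩
    exact abs_le_of_sq_le_mul (mul_nonneg (pow_nonneg hε0 _) (hG₂nn g hgG))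
      (mul_nonneg (pow_nonneg hε0 _) (hGcnn C hCG)) hθpos b7
  choose! δ κ d1 d2 d3 d4 d5 d6 d7 d8 d9 using hBcl
  set KR : ℝ := 24 * (Δ : ℝ) ^ 2 * ε ^ 2 * P with hKR
  set KP : ℝ := (P - 1) + m * ε * P with hKP
  have hcntP : cnt E ∅ ε ≤ P := cnt_empty_le Δ ε hε0 hΔ2 E hdeg
  have hBBE : ∀ F ∈ BB, F ⊆ E := by
    intro F hF
    exact (hBmem F (mem_filter.mp (mem_filter.mp hF).1).1).2.1
  have hBsum : ∑ F ∈ BB, |hs U F| ≤
      (θ * (KR * ∑ g ∈ G₂, hs U g) + θ⁻¹ * (KP * ∑ g ∈ Gc, hs U g)) / 2 := by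
    have k1 := charge_pow BB G₂ δ d1 (hs U) hG₂nn ε KR (by
      intro g hg
      obtain ⟨-, g1, g2⟩ := mem_filter.mp hg
      apply sum_rooted_supersets Δ ε hε0 hΔ2 E hdeg g (card_verts_cherry g1 g2)
      intro F hF
      obtain ⟨a1, a2⟩ := mem_filter.mp hF
      subst a2
      exact ⟨hBBE F a1, d3 F a1, d7 F a1, d8 F a1⟩)
    have k2 := charge_pow BB Gc κ d2 (hs U) hGcnn ε KP (by
      intro C _
      have h3 := sum_pendant_supersets E C ε hε0 (BB.filter (fun F => κ F = C)) (by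
        intro F hF
        obtain ⟨a1, a2⟩ := mem_filter.mp hF
        subst a2
        exact ⟨hBBE F a1, d4 F a1, (d5 F a1).symm, d9 F a1⟩)
      have h4 : (E.card : ℝ) * ε * cnt E ∅ ε ≤ m * ε * P :=
        mul_le_mul_of_nonneg_left hcntP (by positivity)
      linarith)
    calc ∑ F ∈ BB, |hs U F| ≤ ∑ F ∈ BB, (θ * (ε ^ (F.card - (δ F).card) * hs U (δ F)) +
            θ⁻¹ * (ε ^ (F.card - (κ F).card) * hs U (κ F))) / 2 := sum_le_sum fun F hF => d6 F hF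
      _ = (θ * ∑ F ∈ BB, ε ^ (F.card - (δ F).card) * hs U (δ F) +
            θ⁻¹ * ∑ F ∈ BB, ε ^ (F.card - (κ F).card) * hs U (κ F)) / 2 := by
          rw [← sum_div, sum_add_distrib, mul_sum, mul_sum]
      _ ≤ (θ * (KR * ∑ g ∈ G₂, hs U g) + θ⁻¹ * (KP * ∑ g ∈ Gc, hs U g)) / 2 := by
          have i1 := mul_le_mul_of_nonneg_left k1 hθpos.le
          have i2 := mul_le_mul_of_nonneg_left k2 (inv_pos.mpr hθpos).le
          linarith
  -- class C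
  have hCcl : ∀ F, F ∈ BC → ∃ C : Finset (V × V), C ∈ Gc ∧ C ⊆ F ∧ C ≠ F ∧
      |hs U F| ≤ ε ^ (F.card - C.card) * hs U C ∧ Valid ∅ (F \ C) := by
    intro F hF
    obtain ⟨hF1, hnB⟩ := mem_filter.mp hF
    obtain ⟨hFB, -⟩ := mem_filter.mp hF1
    obtain ⟨hne, hFE, hng, -⟩ := hBmem F hFB
    obtain ⟨C, b1, b2, b3, b4⟩ := classC0 U hU ε hε (hE.mono hFE) (nonempty_iff_ne_empty.mpr hne)
      (fun v hv => hnB ⟨v, hv⟩)
    refine ⟨C, mem_filter.mpr ⟨mem_powerset.mpr (b1.trans hFE), b2⟩, b1, ?_, b3, b4⟩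
    rintro rfl
    exact hng (Or.inr b2)
  choose! ρ r1 r2 r3 r4 r5 using hCcl
  have hCsum : ∑ F ∈ BC, |hs U F| ≤ (P - 1) * ∑ g ∈ Gc, hs U g := by
    have k1 := charge_pow BC Gc ρ r1 (hs U) hGcnn ε (P - 1) (by
      intro C _
      have h3 := sum_plain_supersets E C ε hε0 (BC.filter (fun F => ρ F = C)) (by
        intro F hF
        obtain ⟨a1, a2⟩ := mem_filter.mp hF
        subst a2
        exact ⟨(hBmem F (mem_filter.mp (mem_filter.mp a1).1).1).2.1, r2 F a1, (r3 F a1).symm,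
          r5 F a1⟩)
      linarith)
    exact (sum_le_sum fun F hF => r4 F hF).trans k1
  -- conclusion
  have hS₂ : 0 ≤ ∑ g ∈ G₂, hs U g := sum_nonneg hG₂nn
  have hSc : 0 ≤ ∑ g ∈ Gc, hs U g := sum_nonneg hGcnn
  have n1 := num_cherry m Δ ε hε0 hΔm hsmall
  have n2 := num_cycle m Δ ε hεpos hmpos hΔm hsmall
  have t1 : (KA + θ * KR / 2) * ∑ g ∈ G₂, hs U g ≤ 1 * ∑ g ∈ G₂, hs U g :=
    mul_le_mul_of_nonneg_right n1 hS₂
  have t2 : ((P - 1) + θ⁻¹ * KP / 2) * ∑ g ∈ Gc, hs U g ≤ 1 * ∑ g ∈ Gc, hs U g :=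
    mul_le_mul_of_nonneg_right n2 hSc
  have hneg : -(∑ F ∈ B, hs U F) ≤ ∑ F ∈ B, |hs U F| :=
    (neg_le_abs _).trans (abs_sum_le_sum_abs _ _)
  rw [hGsplit]
  rw [hBsplit] at hneg
  nlinarith
end Vale.Agent.P050
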