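import Vale.Agent.P050.Leaf
import Vale.Agent.P050.CycleLemma
import Vale.Agent.P050.GraphCycle

/-!
# Structure of edge sets: cherries, leaves, cycle sets
-/

namespace Vale.Agent.P050

open Finset

variable {V Ω : Type*}

theorem Oriented.ne {col : V → Bool} {F : Finset (V × V)} (h : Oriented col F) {e : V × V}
    (he : e ∈ F) : e.1 ≠ e.2 := by
  intro hc
  have := h e he
  rw [hc] at this
  rw [this.2] at this
  exact absurd this.1 (by simp)

theorem Oriented.mono {col : V → Bool} {F G : Finset (V × V)} (h : Oriented col F) (hG : G ⊆ F) :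
    Oriented col G := fun e he => h e (hG he)

/-- In an oriented edge set the tail of an edge is never the head of another one. -/
theorem Oriented.fst_ne_snd {col : V → Bool} {F : Finset (V × V)} (h : Oriented col F)
    {e e' : V × V} (he : e ∈ F) (he' : e' ∈ F) : e.1 ≠ e'.2 := by
  intro hc
  have h1 := (h e he).1
  have h2 := (h e' he').2
  rw [hc, h2] at h1
  exact absurd h1 (by simp)

theorem Oriented.share_iff {col : V → Bool} {F : Finset (V × V)} (h : Oriented col F)
    {e e' : V × V} (he : e ∈ F) (he' : e' ∈ F) : share e e' ↔ e.1 = e'.1 ∨ e.2 = e'.2 := by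
  unfold share
  constructor
  · rintro (h1 | h1 | h1 | h1)
    · exact Or.inl h1
    · exact absurd h1 (h.fst_ne_snd he he')
    · exact absurd h1.symm (h.fst_ne_snd he' he)
    · exact Or.inr h1
  · rintro (h1 | h1)
    · exact Or.inl h1
    · exact Or.inr (Or.inr (Or.inr h1))

theorem share_symm {e e' : V × V} (h : share e e') : share e' e := by
  unfold share at *
  rcases h with h | h | h | h
  · exact Or.inl h.symm
  · exact Or.inr (Or.inr (Or.inl h.symm))
  · exact Or.inr (Or.inl h.symm)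
  · exact Or.inr (Or.inr (Or.inr h.symm))

variable [DecidableEq V]

/-- Data of a leaf. -/
theorem leaf_data {col : V → Bool} {F : Finset (V × V)} (h : Oriented col F) {l : V}
    (hl : deg F l = 1) :
    ∃ e ∈ F, ∃ v, (e = (l, v) ∨ e = (v, l)) ∧ v ≠ l ∧
      ∀ e' ∈ F, (e'.1 = l ∨ e'.2 = l) → e' = e := by
  unfold deg at hl
  obtain ⟨e, he⟩ := card_eq_one.mp hl
  have hmem : e ∈ F.filter (fun e => e.1 = l ∨ e.2 = l) := by rw [he]; exact mem_singleton_self e
  obtain ⟨heF, het⟩ := mem_filter.mp hmem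
  have huniq : ∀ e' ∈ F, (e'.1 = l ∨ e'.2 = l) → e' = e := by
    intro e' he' ht
    have : e' ∈ F.filter (fun e => e.1 = l ∨ e.2 = l) := mem_filter.mpr ⟨he', ht⟩
    rw [he] at this
    exact mem_singleton.mp this
  have hne := h.ne heF
  rcases het with ht | ht
  · exact ⟨e, heF, e.2, Or.inl (by rw [← ht]), by rw [← ht]; exact hne.symm, huniq⟩
  · exact ⟨e, heF, e.1, Or.inr (by rw [← ht]), by rw [← ht]; exact hne, huniq⟩

/-- A vertex of degree different from one which is an endpoint of `e` is an endpoint of another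
edge. -/
theorem exists_other_edge {F : Finset (V × V)} {v : V} (hv : deg F v ≠ 1) {e : V × V} (he : e ∈ F)
    (het : e.1 = v ∨ e.2 = v) : ∃ e' ∈ F, e' ≠ e ∧ (e'.1 = v ∨ e'.2 = v) := by
  by_contra hcon
  push Not at hcon
  apply hv
  unfold deg
  rw [card_eq_one]
  refine ⟨e, ?_⟩
  ext e'
  rw [mem_filter, mem_singleton]
  constructor
  · rintro ⟨h1, h2⟩
    by_contra h3
    have := hcon e' h1 h3
    rcases h2 with h2 | h2
    · exact this.1 h2
    · exact this.2 h2
  · rintro rfl
    exact ⟨he, het⟩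

variable [Fintype V] [Fintype Ω]

theorem dv_nonneg (U : Ω → Ω → ℝ) (v : V) : 0 ≤ dv U v :=
  sum_nonneg fun _ _ => sq_nonneg _

theorem hs_cherry [Nonempty Ω] (U : Ω → Ω → ℝ) (hU : ∀ a b, U a b = U b a) (e e' : V × V)
    (l v a : V) (he : e = (l, v) ∨ e = (v, l)) (he' : e' = (a, v) ∨ e' = (v, a)) (hlv : v ≠ l)
    (hav : v ≠ a) (hla : l ≠ a) : hs U ({e, e'} : Finset (V × V)) = dv U v := by
  have hne : e ≠ e' := by
    rcases he with rfl | rfl <;> rcases he' with rfl | rfl <;> intro hc <;>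
      simp only [Prod.mk.injEq] at hc
    · exact hla hc.1
    · exact hlv hc.1.symm
    · exact hlv hc.2.symm
    · exact hla hc.2
  have key := hs_two_leaves U hU ({e, e'} : Finset (V × V)) l v a v e e' (by simp) (by simp) hne he he'
    hlv hav
    (by
      intro e'' h1 h2
      rcases mem_insert.mp h1 with rfl | h1
      · rfl
      · rw [mem_singleton] at h1
        subst h1
        exfalso
        rcases he' with rfl | rfl
        · rcases h2 with h2 | h2
          · exact hla h2.symm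
          · exact hlv h2
        · rcases h2 with h2 | h2
          · exact hlv h2
          · exact hla h2.symm)
    (by
      intro e'' h1 h2
      rcases mem_insert.mp h1 with rfl | h1
      · exfalso
        rcases he with rfl | rfl
        · rcases h2 with h2 | h2
          · exact hla h2
          · exact hav h2
        · rcases h2 with h2 | h2
          · exact hav h2
          · exact hla h2
      · exact mem_singleton.mp h1)
  rw [key]
  have hempty : (({e, e'} : Finset (V × V)).erase e).erase e' = ∅ := by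
    ext z
    simp only [mem_erase, mem_insert, mem_singleton, notMem_empty, iff_false]
    tauto
  rw [hempty]
  unfold dv wt
  refine sum_congr rfl fun x _ => ?_
  rw [prod_empty]
  ring

/-- Every cherry (two edges with a common endpoint) has nonnegative homomorphism sum. -/
theorem cherry_nonneg [Nonempty Ω] (U : Ω → Ω → ℝ) (hU : ∀ a b, U a b = U b a) {col : V → Bool}
    {g : Finset (V × V)} (hg : Oriented col g) (hcard : g.card = 2) (hval : Valid ∅ g) :
    0 ≤ hs U g := by
  obtain ⟨e, e', hne, rfl⟩ := card_eq_two.mp hcard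
  have he : e ∈ ({e, e'} : Finset (V × V)) := by simp
  have he' : e' ∈ ({e, e'} : Finset (V × V)) := by simp
  have hsh : share e e' := by
    rcases hval e he with h | ⟨e'', h1, h2, h3⟩
    · simp at h
    · rcases mem_insert.mp h1 with rfl | h1
      · exact absurd rfl h2
      · rw [mem_singleton] at h1
        rwa [h1] at h3
  rcases (hg.share_iff he he').mp hsh with h | h
  · rw [hs_cherry U hU e e' e.2 e.1 e'.2 (Or.inr rfl) (Or.inr (by rw [h])) (hg.ne he)
      (by rw [h]; exact hg.ne he') (by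
        intro hc
        exact hne (Prod.ext h hc))]
    exact dv_nonneg U _
  · rw [hs_cherry U hU e e' e.1 e.2 e'.1 (Or.inl rfl) (Or.inl (by rw [h])) (hg.ne he).symm
      (by rw [h]; exact (hg.ne he').symm) (by
        intro hc
        exact hne (Prod.ext hc h))]
    exact dv_nonneg U _

/-- A pendant edge of a valid edge set lies in a cherry centred at its non-leaf endpoint. -/
theorem exists_cherry_at_leaf [Nonempty Ω] (U : Ω → Ω → ℝ) (hU : ∀ a b, U a b = U b a)
    {col : V → Bool} {F : Finset (V × V)} (hF : Oriented col F) (hval : Valid ∅ F) {e : V × V}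
    (he : e ∈ F) {l v : V} (hlv : e = (l, v) ∨ e = (v, l)) (hne : v ≠ l)
    (hl : ∀ e' ∈ F, (e'.1 = l ∨ e'.2 = l) → e' = e) :
    ∃ e' ∈ F, e' ≠ e ∧ (e'.1 = v ∨ e'.2 = v) ∧ Valid ∅ ({e, e'} : Finset (V × V)) ∧
      hs U ({e, e'} : Finset (V × V)) = dv U v := by
  rcases hval e he with h | ⟨e', he', hne', hsh⟩
  · simp at h
  have htv : e'.1 = v ∨ e'.2 = v := by
    unfold share at hsh
    rcases hlv with rfl | rfl
    · simp only at hsh
      rcases hsh with h | h | h | h
      · exact absurd (hl e' he' (Or.inl h.symm)) hne'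
      · exact absurd (hl e' he' (Or.inr h.symm)) hne'
      · exact Or.inl h.symm
      · exact Or.inr h.symm
    · simp only at hsh
      rcases hsh with h | h | h | h
      · exact Or.inl h.symm
      · exact Or.inr h.symm
      · exact absurd (hl e' he' (Or.inl h.symm)) hne'
      · exact absurd (hl e' he' (Or.inr h.symm)) hne'
  refine ⟨e', he', hne', htv, ?_, ?_⟩
  · intro z hz
    right
    rcases mem_insert.mp hz with rfl | hz
    · exact ⟨e', by simp, hne', hsh⟩
    · rw [mem_singleton] at hz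
      subst hz
      exact ⟨e, by simp, hne'.symm, share_symm hsh⟩
  · have hne2 := hF.ne he'
    rcases htv with h | h
    · apply hs_cherry U hU e e' l v e'.2 hlv (Or.inr (by rw [← h])) hne (by rw [← h]; exact hne2)
      intro hc
      exact hne' (hl e' he' (Or.inr hc.symm))
    · apply hs_cherry U hU e e' l v e'.1 hlv (Or.inl (by rw [← h])) hne (by rw [← h]; exact hne2.symm)
      intro hc
      exact hne' (hl e' he' (Or.inl hc.symm))

/-- Edge sets with two leaves are dominated by cherries. -/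
theorem classA [Nonempty Ω] (U : Ω → Ω → ℝ) (hU : ∀ a b, U a b = U b a) (ε : ℝ)
    (hε : ∀ a b, |U a b| ≤ ε) {col : V → Bool} {F : Finset (V × V)} (hF : Oriented col F)
    (hval : Valid ∅ F) {l₁ l₂ : V} (h12 : l₁ ≠ l₂) (h₁ : deg F l₁ = 1) (h₂ : deg F l₂ = 1) :
    ∃ g₁ g₂ : Finset (V × V), g₁ ⊆ F ∧ g₂ ⊆ F ∧ g₁.card = 2 ∧ g₂.card = 2 ∧ Valid ∅ g₁ ∧
      Valid ∅ g₂ ∧ |hs U F| ≤ ε ^ (F.card - 2) * ((hs U g₁ + hs U g₂) / 2) := by
  obtain ⟨e₁, he₁, v₁, hlv₁, hne₁, hl₁⟩ := leaf_data hF h₁
  obtain ⟨e₂, he₂, v₂, hlv₂, hne₂, hl₂⟩ := leaf_data hF h₂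
  obtain ⟨e₁', he₁', hn₁, ht₁, hval₁, hs₁⟩ := exists_cherry_at_leaf U hU hF hval he₁ hlv₁ hne₁ hl₁
  obtain ⟨e₂', he₂', hn₂, ht₂, hval₂, hs₂⟩ := exists_cherry_at_leaf U hU hF hval he₂ hlv₂ hne₂ hl₂
  have hne : e₁ ≠ e₂ := by
    intro hc
    subst hc
    -- then the endpoints of the edge are the two leaves
    have hv : v₁ = l₂ := by
      rcases hlv₁ with h | h <;> rcases hlv₂ with h' | h' <;> rw [h] at h' <;>
        simp only [Prod.mk.injEq] at h'
      · exact absurd h'.1 h12
      · exact h'.2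
      · exact h'.1
      · exact absurd h'.2 h12
    rw [hv] at ht₁
    exact hn₁ (hl₂ e₁' he₁' ht₁)
  refine ⟨{e₁, e₁'}, {e₂, e₂'}, ?_, ?_, card_pair hn₁.symm, card_pair hn₂.symm, hval₁, hval₂, ?_⟩
  · intro z hz
    rcases mem_insert.mp hz with rfl | hz
    · exact he₁
    · rw [mem_singleton] at hz; rw [hz]; exact he₁'
  · intro z hz
    rcases mem_insert.mp hz with rfl | hz
    · exact he₂
    · rw [mem_singleton] at hz; rw [hz]; exact he₂'
  · rw [hs₁, hs₂]
    exact abs_hs_two_leaves U hU ε hε F l₁ v₁ l₂ v₂ e₁ e₂ he₁ he₂ hne hlv₁ hlv₂ hne₁ hne₂ hl₁ hl₂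

omit [DecidableEq V] [Fintype V] in
/-- An edge set which is exactly a chordless even cycle. -/
def IsCycleSet (C : Finset (V × V)) : Prop :=
  ∃ (n : ℕ) (_ : NeZero n) (c : Fin n → V), Even n ∧ 4 ≤ n ∧ IsCyc C n c ∧ cycEdges C c = C

omit [DecidableEq V] [Fintype V] in
theorem isCyc_cycEdges {F : Finset (V × V)} {n : ℕ} [NeZero n] {c : Fin n → V} (hc : IsCyc F n c) :
    IsCyc (cycEdges F c) n c := by
  refine ⟨hc.inj, fun i => ?_, fun i j h => ?_⟩
  · rcases hc.adj i with h | h
    · exact Or.inl ((mem_cycEdges F c _).mpr ⟨h, ⟨i, rfl⟩, ⟨i + 1, rfl⟩⟩)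
    · exact Or.inr ((mem_cycEdges F c _).mpr ⟨h, ⟨i + 1, rfl⟩, ⟨i, rfl⟩⟩)
  · apply hc.chordless
    rcases h with h | h
    · exact Or.inl ((mem_cycEdges F c _).mp h).1
    · exact Or.inr ((mem_cycEdges F c _).mp h).1

omit [DecidableEq V] [Fintype V] in
theorem cycEdges_cycEdges (F : Finset (V × V)) {n : ℕ} (c : Fin n → V) :
    cycEdges (cycEdges F c) c = cycEdges F c := by
  ext e
  simp only [mem_cycEdges]
  tauto

omit [DecidableEq V] [Fintype V] in
theorem isCycleSet_cycEdges {F : Finset (V × V)} {n : ℕ} [hn0 : NeZero n] {c : Fin n → V}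
    (hc : IsCyc F n c) (hn : Even n) (hn4 : 4 ≤ n) : IsCycleSet (cycEdges F c) :=
  ⟨n, hn0, c, hn, hn4, isCyc_cycEdges hc, cycEdges_cycEdges F c⟩

variable [DecidableEq Ω]

theorem abs_hs_le_cycle [Nonempty Ω] (U : Ω → Ω → ℝ) (hU : ∀ a b, U a b = U b a) (ε : ℝ)
    (hε : ∀ a b, |U a b| ≤ ε) {col : V → Bool} {F : Finset (V × V)} (hF : Oriented col F)
    {n : ℕ} [NeZero n] {c : Fin n → V} (hc : IsCyc F n c) (hn : Even n) (hn4 : 4 ≤ n) :
    |hs U F| ≤ ε ^ (F.card - (cycEdges F c).card) * hs U (cycEdges F c) := by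
  have h := cycle_bound U hU ε hε col F hF n hn (by omega) c hc (c 0) (fun _ => 1) 1 (by simp)
  simp only [one_mul] at h
  rw [card_cycEdges col F hF n (by omega) c hc]
  exact h

theorem cycleSet_nonneg [Nonempty Ω] (U : Ω → Ω → ℝ) (hU : ∀ a b, U a b = U b a) (ε : ℝ)
    (hε : ∀ a b, |U a b| ≤ ε) {col : V → Bool} {C : Finset (V × V)} (hC : Oriented col C)
    (hcs : IsCycleSet C) : 0 ≤ hs U C := by
  obtain ⟨n, hn0, c, hn, hn4, hc, hcc⟩ := hcs
  have h := abs_hs_le_cycle U hU ε hε hC hc hn hn4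
  rw [hcc, Nat.sub_self, pow_zero, one_mul] at h
  exact (abs_nonneg _).trans h

/-- Edge sets with at most one leaf are dominated by a cycle. -/
theorem classC [Nonempty Ω] (U : Ω → Ω → ℝ) (hU : ∀ a b, U a b = U b a) (ε : ℝ)
    (hε : ∀ a b, |U a b| ≤ ε) {col : V → Bool} {F : Finset (V × V)} (hF : Oriented col F)
    (hne : F.Nonempty) (hleaf : ∀ v w, deg F v = 1 → deg F w = 1 → v = w) :
    ∃ C : Finset (V × V), C ⊆ F ∧ IsCycleSet C ∧ |hs U F| ≤ ε ^ (F.card - C.card) * hs U C := by
  obtain ⟨n, hn0, c, hn, hn4, hc⟩ := exists_cycle col F hF hne hleaf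
  exact ⟨cycEdges F c, cycEdges_subset F c, isCycleSet_cycEdges hc hn hn4,
    abs_hs_le_cycle U hU ε hε hF hc hn hn4⟩

end Vale.Agent.P050
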