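import Mathlib

/-!
# A trace inequality (Hoelder inequality for even cycles, special case)

For a symmetric real matrix `U` and diagonal contractions `D_1, ..., D_n`, `n` even,
`|tr (D_1 U D_2 U ... D_n U)| ≤ tr (U ^ n)`.

PROOF SKETCH.  Write `P L = (L.map fun g => diagonal g * U).prod`, `Φ L = trace (P L)`,
`A L = U * P L`.
(1) `P (L₁ ++ L₂) = P L₁ * P L₂` (List.map_append, List.prod_append), hence
    `Φ (L₁ ++ L₂) = Φ (L₂ ++ L₁)` (Matrix.trace_mul_comm).
(2) `(A L)ᵀ = A L.reverse` (induction on `L`, with `Uᵀ = U`, `(diagonal g)ᵀ = diagonal g`;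
    it is convenient to prove first `U * P (L ++ [g]) = A L * diagonal g * U`).
(3) For `L = a :: (L₁ ++ b :: L₂)`:  `Φ L = ∑ x, ∑ y, a x * A L₁ x y * b y * A L₂ y x`
    (`P L = diagonal a * A L₁ * diagonal b * A L₂`), so by Cauchy-Schwarz, if `|a|,|b| ≤ 1`,
    `Φ L ^ 2 ≤ (∑ x y, A L₁ x y ^ 2) * (∑ x y, A L₂ y x ^ 2)`.
(4) `∑ x y, A L₁ x y ^ 2 = trace (A L₁ * (A L₁)ᵀ) = trace (U * P L₁ * (U * P L₁.reverse))
    = Φ (1 :: (L₁ ++ 1 :: L₁.reverse))` where `1` is the constant function (diagonal 1 = 1).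
    So `Φ L ^ 2 ≤ Φ (1 :: (L₁ ++ 1 :: L₁.reverse)) * Φ (1 :: (L₂ ++ 1 :: L₂.reverse))`
    and both factors are nonnegative.
(5) Fix `n = 2 r`.  `|Φ L| ≤ B` for all contraction lists of length `n`, for some `B`
    (crude entrywise bound by induction).  For `s ≤ n` let `M s` be the supremum (sSup) of `|Φ L|`
    over contraction lists of length `n` with `L.count 1 ≥ s` (classical decidable equality).
    Then `M` is antitone, `M n = Φ (replicate n 1) = trace (U ^ n) ≥ 0`.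
(6) `M s ^ 2 ≤ M (s+1) * M 0` for `s < n`: let `L` have `count 1 ≥ s`.  If all entries are `1` this is
    clear.  Otherwise rotate `L` (this does not change `Φ`, the length, the count) so that its
    head `a` is not `1`; write the tail (length `2 r - 1`) as `L₁ ++ b :: L₂` with
    `L₁.length = L₂.length = r - 1`.  Then `count 1 L ≤ count 1 L₁ + 1 + count 1 L₂`, whereas the two
    lists in (4) have counts `2 count 1 L₁ + 2` and `2 count 1 L₂ + 2`; the larger one is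
    `≥ count 1 L + 1 ≥ s + 1`.
(7) If `M 0 = 0` we are done.  Otherwise by induction `M s = M 0` for all `s ≤ n`:
    `M 0 ^ 2 = M s ^ 2 ≤ M (s+1) * M 0` gives `M 0 ≤ M (s+1) ≤ M 0`.  Hence `M 0 = M n`.
-/

namespace Vale.Agent.P050

open Matrix

section aux

variable {Ω : Type*} [Fintype Ω] [DecidableEq Ω]

/-- the product `D_1 U D_2 U ...` -/
private def PP (U : Matrix Ω Ω ℝ) (L : List (Ω → ℝ)) : Matrix Ω Ω ℝ :=
  (L.map fun g => Matrix.diagonal g * U).prod

private theorem PP_nil (U : Matrix Ω Ω ℝ) : PP U [] = 1 := by simp [PP]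

private theorem PP_cons (U : Matrix Ω Ω ℝ) (g : Ω → ℝ) (L : List (Ω → ℝ)) :
    PP U (g :: L) = Matrix.diagonal g * U * PP U L := by simp [PP]

private theorem PP_append (U : Matrix Ω Ω ℝ) (L₁ L₂ : List (Ω → ℝ)) :
    PP U (L₁ ++ L₂) = PP U L₁ * PP U L₂ := by simp [PP]

private theorem tr_rot (U : Matrix Ω Ω ℝ) (L₁ L₂ : List (Ω → ℝ)) :
    trace (PP U (L₁ ++ L₂)) = trace (PP U (L₂ ++ L₁)) := by
  rw [PP_append, PP_append, Matrix.trace_mul_comm]

private theorem transpose_A {U : Matrix Ω Ω ℝ} (hU : U.IsSymm) (L : List (Ω → ℝ)) :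
    (U * PP U L)ᵀ = U * PP U L.reverse := by
  induction L with
  | nil => simp [PP_nil, hU.eq]
  | cons g L ih =>
    rw [List.reverse_cons, PP_append, PP_cons, PP_cons, PP_nil, mul_one]
    have : U * (diagonal g * U * PP U L) = U * diagonal g * (U * PP U L) := by
      simp [Matrix.mul_assoc]
    rw [this, Matrix.transpose_mul, ih, Matrix.transpose_mul, hU.eq, Matrix.diagonal_transpose]
    simp [Matrix.mul_assoc]

/-- the reflected list -/
private def RR (L : List (Ω → ℝ)) : List (Ω → ℝ) := (1 : Ω → ℝ) :: (L ++ (1 : Ω → ℝ) :: L.reverse)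

private theorem tr_refl {U : Matrix Ω Ω ℝ} (hU : U.IsSymm) (L : List (Ω → ℝ)) :
    trace (PP U (RR L)) = ∑ x, ∑ y, (U * PP U L) x y ^ 2 := by
  have h1 : diagonal (1 : Ω → ℝ) = (1 : Matrix Ω Ω ℝ) := Matrix.diagonal_one
  rw [RR, PP_cons, PP_append, PP_cons, h1, one_mul]
  have : U * (PP U L * (U * PP U L.reverse)) = (U * PP U L) * (U * PP U L)ᵀ := by
    rw [transpose_A hU, Matrix.mul_assoc]
  rw [this]
  generalize U * PP U L = A
  simp only [Matrix.trace, Matrix.diag_apply, Matrix.mul_apply, Matrix.transpose_apply, sq]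

private theorem tr_refl_nonneg {U : Matrix Ω Ω ℝ} (hU : U.IsSymm) (L : List (Ω → ℝ)) :
    0 ≤ trace (PP U (RR L)) := by
  rw [tr_refl hU]
  exact Finset.sum_nonneg fun x _ => Finset.sum_nonneg fun y _ => sq_nonneg _

private theorem cs (U : Matrix Ω Ω ℝ) (a b : Ω → ℝ) (ha : ∀ ω, |a ω| ≤ 1) (hb : ∀ ω, |b ω| ≤ 1)
    (L₁ L₂ : List (Ω → ℝ)) :
    trace (PP U (a :: (L₁ ++ b :: L₂))) ^ 2 ≤
      (∑ x, ∑ y, (U * PP U L₁) x y ^ 2) * (∑ x, ∑ y, (U * PP U L₂) x y ^ 2) := by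
  set A₁ := U * PP U L₁ with hA₁
  set A₂ := U * PP U L₂ with hA₂
  have e1 : PP U (a :: (L₁ ++ b :: L₂)) = (diagonal a * A₁) * (diagonal b * A₂) := by
    rw [PP_cons, PP_append, PP_cons, hA₁, hA₂]
    simp [Matrix.mul_assoc]
  have e2 : trace (PP U (a :: (L₁ ++ b :: L₂))) =
      ∑ p : Ω × Ω, (a p.1 * b p.2 * A₁ p.1 p.2) * A₂ p.2 p.1 := by
    rw [e1, Fintype.sum_prod_type]
    simp only [Matrix.trace, Matrix.diag_apply, Matrix.mul_apply (M := diagonal a * A₁),
      Matrix.diagonal_mul]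
    refine Finset.sum_congr rfl fun x _ => Finset.sum_congr rfl fun y _ => ?_
    ring
  have e3 : ∑ p : Ω × Ω, (a p.1 * b p.2 * A₁ p.1 p.2) ^ 2 ≤ ∑ x, ∑ y, A₁ x y ^ 2 := by
    rw [Fintype.sum_prod_type]
    refine Finset.sum_le_sum fun x _ => Finset.sum_le_sum fun y _ => ?_
    have h1 : (a x) ^ 2 ≤ 1 := by
      have := ha x
      rw [abs_le] at this
      nlinarith [this.1, this.2]
    have h2 : (b y) ^ 2 ≤ 1 := by
      have := hb y
      rw [abs_le] at this
      nlinarith [this.1, this.2]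
    have h3 : (a x) ^ 2 * (b y) ^ 2 ≤ 1 := by nlinarith [sq_nonneg (a x), sq_nonneg (b y)]
    have : (a x * b y * A₁ x y) ^ 2 = ((a x) ^ 2 * (b y) ^ 2) * A₁ x y ^ 2 := by ring
    simp only
    rw [this]
    nlinarith [sq_nonneg (A₁ x y)]
  have e4 : ∑ p : Ω × Ω, (A₂ p.2 p.1) ^ 2 = ∑ x, ∑ y, A₂ x y ^ 2 := by
    rw [Fintype.sum_prod_type, Finset.sum_comm]
  rw [e2]
  calc (∑ p : Ω × Ω, (a p.1 * b p.2 * A₁ p.1 p.2) * A₂ p.2 p.1) ^ 2
      ≤ (∑ p : Ω × Ω, (a p.1 * b p.2 * A₁ p.1 p.2) ^ 2) * ∑ p : Ω × Ω, (A₂ p.2 p.1) ^ 2 :=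
        Finset.sum_mul_sq_le_sq_mul_sq _ _ _
    _ ≤ _ := by
        rw [e4]
        exact mul_le_mul_of_nonneg_right e3
          (Finset.sum_nonneg fun x _ => Finset.sum_nonneg fun y _ => sq_nonneg _)

private theorem cs' {U : Matrix Ω Ω ℝ} (hU : U.IsSymm) (a b : Ω → ℝ) (ha : ∀ ω, |a ω| ≤ 1)
    (hb : ∀ ω, |b ω| ≤ 1) (L₁ L₂ : List (Ω → ℝ)) :
    trace (PP U (a :: (L₁ ++ b :: L₂))) ^ 2 ≤ trace (PP U (RR L₁)) * trace (PP U (RR L₂)) := by
  rw [tr_refl hU, tr_refl hU]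
  exact cs U a b ha hb L₁ L₂

private theorem entry_bound (U : Matrix Ω Ω ℝ) (L : List (Ω → ℝ))
    (hc : ∀ g ∈ L, ∀ ω, |g ω| ≤ 1) (x y : Ω) :
    |PP U L x y| ≤ (∑ x, ∑ z, |U x z|) ^ L.length := by
  induction L generalizing x y with
  | nil =>
    rw [PP_nil, Matrix.one_apply]
    split_ifs <;> simp
  | cons g L ih =>
    have hu : 0 ≤ ∑ x, ∑ z, |U x z| :=
      Finset.sum_nonneg fun x _ => Finset.sum_nonneg fun y _ => abs_nonneg _
    rw [PP_cons, Matrix.mul_apply, List.length_cons, pow_succ']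
    calc |∑ z, (diagonal g * U) x z * PP U L z y|
        ≤ ∑ z, |(diagonal g * U) x z * PP U L z y| := Finset.abs_sum_le_sum_abs _ _
      _ ≤ ∑ z, |U x z| * (∑ x, ∑ z, |U x z|) ^ L.length := by
          refine Finset.sum_le_sum fun z _ => ?_
          rw [abs_mul, Matrix.diagonal_mul, abs_mul]
          have h1 := hc g (List.mem_cons_self) x
          have h2 := ih (fun g' hg' => hc g' (List.mem_cons_of_mem _ hg')) z y
          have h3 : |g x| * |U x z| ≤ |U x z| := by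
            nlinarith [abs_nonneg (U x z), abs_nonneg (g x)]
          exact mul_le_mul h3 h2 (abs_nonneg _) (abs_nonneg _)
      _ = (∑ z, |U x z|) * (∑ x, ∑ z, |U x z|) ^ L.length := by rw [Finset.sum_mul]
      _ ≤ (∑ x, ∑ z, |U x z|) * (∑ x, ∑ z, |U x z|) ^ L.length := by
          refine mul_le_mul_of_nonneg_right ?_ (pow_nonneg hu _)
          exact Finset.single_le_sum (f := fun x => ∑ z, |U x z|)
            (fun x _ => Finset.sum_nonneg fun y _ => abs_nonneg _) (Finset.mem_univ x)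

private theorem trace_bound (U : Matrix Ω Ω ℝ) (L : List (Ω → ℝ))
    (hc : ∀ g ∈ L, ∀ ω, |g ω| ≤ 1) :
    |trace (PP U L)| ≤ (Fintype.card Ω : ℝ) * (∑ x, ∑ z, |U x z|) ^ L.length := by
  calc |trace (PP U L)| ≤ ∑ x, |PP U L x x| := Finset.abs_sum_le_sum_abs _ _
    _ ≤ ∑ _x : Ω, (∑ x, ∑ z, |U x z|) ^ L.length :=
        Finset.sum_le_sum fun x _ => entry_bound U L hc x x
    _ = _ := by simp

private def Valid (n : ℕ) (L : List (Ω → ℝ)) : Prop :=
  L.length = n ∧ ∀ g ∈ L, ∀ ω, |g ω| ≤ 1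

private theorem split_mid {α : Type*} (k : ℕ) (l : List α) (hl : l.length = 2 * k + 1) :
    ∃ L₁ b L₂, l = L₁ ++ b :: L₂ ∧ L₁.length = k ∧ L₂.length = k := by
  have h1 : (l.drop k).length = k + 1 := by rw [List.length_drop]; omega
  match h : l.drop k with
  | [] => rw [h] at h1; simp at h1
  | b :: L₂ =>
    refine ⟨l.take k, b, L₂, ?_, ?_, ?_⟩
    · rw [← h, List.take_append_drop]
    · rw [List.length_take]; omega
    · rw [h] at h1; simpa using h1

omit [Fintype Ω] [DecidableEq Ω] in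
private theorem RR_valid {k : ℕ} {L : List (Ω → ℝ)} (hl : L.length = k)
    (hc : ∀ g ∈ L, ∀ ω, |g ω| ≤ 1) : Valid (k + 1 + (k + 1)) (RR L) := by
  constructor
  · simp [RR, hl]; omega
  · intro g hg ω
    simp only [RR, List.mem_cons, List.mem_append, List.mem_reverse] at hg
    rcases hg with rfl | hg | rfl | hg
    · simp
    · exact hc g hg ω
    · simp
    · exact hc g hg ω

omit [Fintype Ω] [DecidableEq Ω] in
private theorem RR_count [DecidableEq (Ω → ℝ)] (L : List (Ω → ℝ)) :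
    (RR L).count 1 = 2 * L.count 1 + 2 := by
  simp [RR, List.count_append, List.count_reverse]; omega

private theorem step [DecidableEq (Ω → ℝ)] {U : Matrix Ω Ω ℝ} (hU : U.IsSymm) (r : ℕ)
    (L : List (Ω → ℝ)) (hv : Valid (r + r) L) (hlt : L.count 1 < r + r) :
    ∃ L' L'', Valid (r + r) L' ∧ Valid (r + r) L'' ∧ 0 ≤ trace (PP U L') ∧ 0 ≤ trace (PP U L'') ∧
      trace (PP U L) ^ 2 ≤ trace (PP U L') * trace (PP U L'') ∧ L.count 1 + 1 ≤ L'.count 1 := by
  obtain ⟨hlen, hc⟩ := hv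
  have hex : ∃ g ∈ L, g ≠ 1 := by
    by_contra hcon
    have hcon' : ∀ b ∈ L, b = 1 := by
      intro b hb
      by_contra hb1
      exact hcon ⟨b, hb, hb1⟩
    have : L.count 1 = L.length := List.count_eq_length.2 fun b hb => (hcon' b hb).symm
    omega
  obtain ⟨g, hg, hg1⟩ := hex
  obtain ⟨s, t, rfl⟩ := List.append_of_mem hg
  have hlen' : (t ++ s).length + 1 = r + r := by
    simp only [List.length_append, List.length_cons] at hlen ⊢
    omega
  obtain ⟨k, rfl⟩ : ∃ k, r = k + 1 := ⟨r - 1, by omega⟩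
  obtain ⟨L₁, b, L₂, hsplit, hl1, hl2⟩ := split_mid k (t ++ s) (by omega)
  have hmem : ∀ g' ∈ t ++ s, ∀ ω, |g' ω| ≤ 1 := by
    intro g' hg' ω
    apply hc g' _ ω
    simp only [List.mem_append, List.mem_cons] at hg' ⊢
    tauto
  have hc1 : ∀ g' ∈ L₁, ∀ ω, |g' ω| ≤ 1 := fun g' hg' =>
    hmem g' (by rw [hsplit]; simp [hg'])
  have hc2 : ∀ g' ∈ L₂, ∀ ω, |g' ω| ≤ 1 := fun g' hg' =>
    hmem g' (by rw [hsplit]; simp [hg'])
  have hb : ∀ ω, |b ω| ≤ 1 := hmem b (by rw [hsplit]; simp)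
  have hga : ∀ ω, |g ω| ≤ 1 := hc g hg
  have hΦ : trace (PP U (s ++ g :: t)) = trace (PP U (g :: (L₁ ++ b :: L₂))) := by
    rw [tr_rot, List.cons_append, hsplit]
  have hcs := cs' hU g b hga hb L₁ L₂
  rw [← hΦ] at hcs
  have hcount : (s ++ g :: t).count 1 ≤ L₁.count 1 + 1 + L₂.count 1 := by
    have e1 : (s ++ g :: t).count 1 = (t ++ s).count 1 := by
      rw [List.count_append, List.count_cons_of_ne (Ne.symm hg1).symm, List.count_append]
      omega
    rw [e1, hsplit, List.count_append, List.count_cons]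
    split_ifs <;> omega
  rcases le_total (L₂.count 1) (L₁.count 1) with h | h
  · refine ⟨RR L₁, RR L₂, RR_valid hl1 hc1, RR_valid hl2 hc2, tr_refl_nonneg hU _,
      tr_refl_nonneg hU _, hcs, ?_⟩
    rw [RR_count]; omega
  · refine ⟨RR L₂, RR L₁, RR_valid hl2 hc2, RR_valid hl1 hc1, tr_refl_nonneg hU _,
      tr_refl_nonneg hU _, by rw [mul_comm]; exact hcs, ?_⟩
    rw [RR_count]; omega

private theorem main_ineq {U : Matrix Ω Ω ℝ} (hU : U.IsSymm) (r : ℕ) (L : List (Ω → ℝ))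
    (hv : Valid (r + r) L) : |trace (PP U L)| ≤ trace (U ^ (r + r)) := by
  classical
  set T := trace (U ^ (r + r)) with hT
  let S : Set ℝ := {x | ∃ L, Valid (r + r) L ∧ x = |trace (PP U L)|}
  have hbdd : BddAbove S := ⟨(Fintype.card Ω : ℝ) * (∑ x, ∑ z, |U x z|) ^ (r + r), by
    rintro x ⟨L, hL, rfl⟩
    have := trace_bound U L hL.2
    rwa [hL.1] at this⟩
  set M := sSup S with hM
  have hle : ∀ L, Valid (r + r) L → |trace (PP U L)| ≤ M :=
    fun L hL => le_csSup hbdd ⟨L, hL, rfl⟩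
  have hM0 : 0 ≤ M := le_trans (abs_nonneg _) (hle L hv)
  have hrep : ∀ L, Valid (r + r) L → r + r ≤ L.count 1 → trace (PP U L) = T := by
    intro L hL hcnt
    have h1 : L.count 1 = L.length := le_antisymm List.count_le_length (by rw [hL.1]; exact hcnt)
    have h2 : L = List.replicate (r + r) 1 :=
      List.eq_replicate_iff.2 ⟨hL.1, fun b hb => (List.count_eq_length.1 h1 b hb).symm⟩
    have h3 : diagonal (1 : Ω → ℝ) = (1 : Matrix Ω Ω ℝ) := Matrix.diagonal_one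
    rw [h2, PP, List.map_replicate, List.prod_replicate, h3, one_mul]
  have hT0 : 0 ≤ T := by
    have h1 : U ^ (r + r) = U ^ r * (U ^ r)ᵀ := by
      rw [Matrix.transpose_pow, hU.eq, pow_add]
    rw [hT, h1]
    generalize U ^ r = A
    simp only [Matrix.trace, Matrix.diag_apply, Matrix.mul_apply, Matrix.transpose_apply]
    exact Finset.sum_nonneg fun x _ => Finset.sum_nonneg fun y _ => mul_self_nonneg _
  have key : ∀ j : ℕ, ∀ L, Valid (r + r) L → r + r ≤ L.count 1 + j →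
      |trace (PP U L)| ^ (2 ^ j) * M ≤ T * M ^ (2 ^ j) := by
    intro j
    induction j with
    | zero =>
      intro L hL hcnt
      rw [hrep L hL (by simpa using hcnt), abs_of_nonneg hT0]
      simp
    | succ j ih =>
      intro L hL hcnt
      obtain ⟨L', L'', hL', hL'', hsq, hcnt'⟩ : ∃ L' L'', Valid (r + r) L' ∧ Valid (r + r) L'' ∧
          |trace (PP U L)| ^ 2 ≤ |trace (PP U L')| * |trace (PP U L'')| ∧
          r + r ≤ L'.count 1 + j := by
        by_cases hc : r + r ≤ L.count 1 + j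
        · exact ⟨L, L, hL, hL, by rw [sq], hc⟩
        · obtain ⟨L', L'', h1, h2, h3, h4, h5, h6⟩ := step hU r L hL (by omega)
          refine ⟨L', L'', h1, h2, ?_, by omega⟩
          rw [sq_abs, abs_of_nonneg h3, abs_of_nonneg h4]
          exact h5
      have e1 : |trace (PP U L)| ^ (2 ^ (j + 1)) = (|trace (PP U L)| ^ 2) ^ (2 ^ j) := by
        rw [← pow_mul, pow_succ, mul_comm]
      have e2 : M ^ (2 ^ (j + 1)) = M ^ (2 ^ j) * M ^ (2 ^ j) := by
        rw [← pow_add, pow_succ, mul_two]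
      have h1 : (|trace (PP U L)| ^ 2) ^ (2 ^ j) ≤
          |trace (PP U L')| ^ (2 ^ j) * |trace (PP U L'')| ^ (2 ^ j) := by
        rw [← mul_pow]
        exact pow_le_pow_left₀ (sq_nonneg _) hsq _
      have h2 := ih L' hL' hcnt'
      have h3 : |trace (PP U L'')| ^ (2 ^ j) ≤ M ^ (2 ^ j) :=
        pow_le_pow_left₀ (abs_nonneg _) (hle L'' hL'') _
      rw [e1, e2]
      calc (|trace (PP U L)| ^ 2) ^ (2 ^ j) * M
          ≤ (|trace (PP U L')| ^ (2 ^ j) * |trace (PP U L'')| ^ (2 ^ j)) * M :=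
            mul_le_mul_of_nonneg_right h1 hM0
        _ = (|trace (PP U L')| ^ (2 ^ j) * M) * |trace (PP U L'')| ^ (2 ^ j) := by ring
        _ ≤ (T * M ^ (2 ^ j)) * M ^ (2 ^ j) :=
            mul_le_mul h2 h3 (pow_nonneg (abs_nonneg _) _)
              (mul_nonneg hT0 (pow_nonneg hM0 _))
        _ = T * (M ^ (2 ^ j) * M ^ (2 ^ j)) := by ring
  refine le_trans (hle L hv) ?_
  rcases hM0.eq_or_lt with h0 | hpos
  · rw [← h0]; exact hT0
  set N := 2 ^ (r + r) with hN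
  have hN0 : N ≠ 0 := by positivity
  have hall : ∀ L, Valid (r + r) L → |trace (PP U L)| ^ N ≤ T * M ^ N / M := by
    intro L hL
    rw [le_div_iff₀ hpos]
    exact key (r + r) L hL (by omega)
  have hK0 : 0 ≤ T * M ^ N / M := by positivity
  set c := (T * M ^ N / M) ^ ((N : ℝ)⁻¹) with hc
  have hc0 : 0 ≤ c := Real.rpow_nonneg hK0 _
  have hcN : c ^ N = T * M ^ N / M := Real.rpow_inv_natCast_pow hK0 hN0
  have hMc : M ≤ c := by
    have hne : S.Nonempty := ⟨|trace (PP U L)|, L, hv, rfl⟩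
    apply csSup_le hne
    rintro x ⟨L, hL, rfl⟩
    have := hall L hL
    rw [← hcN] at this
    exact (pow_le_pow_iff_left₀ (abs_nonneg _) hc0 hN0).1 this
  have h1 : M ^ N ≤ T * M ^ N / M := by
    rw [← hcN]
    exact pow_le_pow_left₀ hM0 hMc _
  rw [le_div_iff₀ hpos] at h1
  have hMN : 0 < M ^ N := pow_pos hpos _
  nlinarith

end aux

theorem trace_list_le {Ω : Type*} [Fintype Ω] [DecidableEq Ω] (U : Matrix Ω Ω ℝ) (hU : U.IsSymm)
    (L : List (Ω → ℝ)) (hL : Even L.length) (hc : ∀ g ∈ L, ∀ ω, |g ω| ≤ 1) :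
    |Matrix.trace ((L.map fun g => Matrix.diagonal g * U).prod)| ≤ Matrix.trace (U ^ L.length) := by
  obtain ⟨r, hr⟩ := hL
  rw [hr]
  exact main_ineq hU r L ⟨hr, hc⟩

end Vale.Agent.P050
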